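import Vale.Agent.P286.H295.Coprod
import Vale.Agent.P286.H103.FrOm

/-!
# Representations of a linear algebraic group, on points

`Rpn Γ I`: a homomorphism `ρ` from the group to the invertible matrices, natural in the algebra of
values. `R.um` is its universal matrix, `R.dr` its differential; `ρ(g)⁻¹ dρ(g)` is the image of
`g⁻¹ dg` under the differential.
-/

namespace Vale.Agent.P286.H987

open Matrix Vale.Agent.P286.Gen Vale.Agent.P286.H295 Vale.Agent.P286.H103 Vale.Agent.P286.H710

noncomputable section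

set_option linter.unusedSectionVars false

section Dual

variable {I : Type} [Fintype I] [DecidableEq I] {A B : Type} [CommRing A] [Algebra ℂ A]
  [CommRing B] [Algebra ℂ B]

/-- The matrix `x + ε y`. -/
def dI (x y : Matrix I I A) : Matrix I I (DualNumber A) :=
  fun i j => TrivSqZeroExt.inl (x i j) + TrivSqZeroExt.inr (y i j)

theorem dI_apply (x y : Matrix I I A) (i j : I) :
    dI x y i j = TrivSqZeroExt.inl (x i j) + TrivSqZeroExt.inr (y i j) := rfl

theorem dI_mul (x y x' y' : Matrix I I A) :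
    dI x y * dI x' y' = dI (x * x') (x * y' + y * x') := by
  ext i j
  · simp [Matrix.mul_apply, dI_apply, TrivSqZeroExt.fst_sum]
  · simp [Matrix.mul_apply, dI_apply, TrivSqZeroExt.snd_sum, Finset.sum_add_distrib, mul_comm]

theorem dI_snd {x y x' y' : Matrix I I A} (h : dI x y = dI x' y') : y = y' := by
  ext i j
  have h1 := congrArg TrivSqZeroExt.snd (congrFun (congrFun h i) j)
  rw [dI_apply, dI_apply] at h1
  simpa using h1

theorem dI_fst {x y x' y' : Matrix I I A} (h : dI x y = dI x' y') : x = x' := by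
  ext i j
  have h1 := congrArg TrivSqZeroExt.fst (congrFun (congrFun h i) j)
  rw [dI_apply, dI_apply] at h1
  simpa using h1

theorem map_derA_I (v : Derivation ℂ A A) (x : Matrix I I A) : x.map (derA v) = dI x (x.map v) := rfl

theorem map_inlA_I (x : Matrix I I A) : x.map (inlA A) = dI x 0 := by
  ext i j
  · simp [dI_apply, inlA]
  · simp [dI_apply, inlA]

/-- A constant matrix. -/
def cI (A : Type) [CommRing A] [Algebra ℂ A] (X : Matrix I I ℂ) : Matrix I I A :=
  X.map (algebraMap ℂ A)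

theorem cI_apply (X : Matrix I I ℂ) (i j : I) : cI A X i j = algebraMap ℂ A (X i j) := rfl

theorem cI_map (f : A →ₐ[ℂ] B) (X : Matrix I I ℂ) : (cI A X).map f = cI B X := by
  ext i j
  exact f.commutes _

end Dual

/-- A representation of the group, on the points with values in all algebras. -/
structure Rpn {N : ℕ} (Γ : Gps N) (I : Type) [Fintype I] [DecidableEq I] where
  /-- the matrix of a point -/
  r : ∀ {A : Type} [CommRing A] [Algebra ℂ A], Gr Γ A →* Matrix I I A
  /-- naturality -/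
  nat : ∀ {A B : Type} [CommRing A] [Algebra ℂ A] [CommRing B] [Algebra ℂ B] (f : A →ₐ[ℂ] B)
    (x : Gr Γ A), r (gm f x) = (r x).map f

namespace Rpn

variable {N : ℕ} {Γ : Gps N} {I : Type} [Fintype I] [DecidableEq I] (R : Rpn Γ I)
  {A B : Type} [CommRing A] [Algebra ℂ A] [CommRing B] [Algebra ℂ B]

theorem mul_inv (x : Gr Γ A) : R.r x * R.r x⁻¹ = 1 := by
  rw [← map_mul, mul_inv_cancel, map_one]

theorem inv_mul (x : Gr Γ A) : R.r x⁻¹ * R.r x = 1 := by
  rw [← map_mul, inv_mul_cancel, map_one]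

/-- The universal matrix of the representation. -/
def um : Matrix I I (Of Γ) := R.r (ug Γ)

/-- The inverse of the universal matrix. -/
def ui : Matrix I I (Of Γ) := R.r (ug Γ)⁻¹

theorem um_ui : R.um * R.ui = 1 := R.mul_inv _

theorem ui_um : R.ui * R.um = 1 := R.inv_mul _

theorem um_map (x : Gr Γ A) : R.um.map (hpt x) = R.r x := by
  rw [um, ← R.nat, gm_hpt]

theorem ui_map (x : Gr Γ A) : R.ui.map (hpt x) = R.r x⁻¹ := by
  have h : gm (hpt x) (ug Γ)⁻¹ = x⁻¹ := by rw [gm_inv, gm_hpt]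
  rw [ui, ← R.nat, h]

/-- Polynomials representing the entries of the universal matrix. -/
def pl (i j : I) : Pl N := (Ideal.Quotient.mk_surjective (R.um i j)).choose

theorem mk_pl (i j : I) : Ideal.Quotient.mk (vanI Γ) (R.pl i j) = R.um i j :=
  (Ideal.Quotient.mk_surjective (R.um i j)).choose_spec

theorem r_apply (x : Gr Γ A) (i j : I) : R.r x i j = ev (mx x) (R.pl i j) := by
  rw [← R.um_map x, Matrix.map_apply, ← mk_pl]
  rfl

/-- The differential of the representation. -/
def dr (X : Mt N A) : Matrix I I A :=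
  fun i j => ∑ p : Fin N × Fin N, X p.1 p.2 *
    algebraMap ℂ A (dcf (1 : Matrix (Fin N) (Fin N) ℂ) p (R.pl i j))

theorem dr_apply (X : Mt N A) (i j : I) : R.dr X i j = ∑ p : Fin N × Fin N, X p.1 p.2 *
    algebraMap ℂ A (dcf (1 : Matrix (Fin N) (Fin N) ℂ) p (R.pl i j)) := rfl

theorem dr_add (X Y : Mt N A) : R.dr (X + Y) = R.dr X + R.dr Y := by
  ext i j
  simp only [dr_apply, Matrix.add_apply, add_mul, Finset.sum_add_distrib]

theorem dr_smul (a : A) (X : Mt N A) : R.dr (a • X) = a • R.dr X := by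
  ext i j
  simp only [dr_apply, Matrix.smul_apply, smul_eq_mul, mul_assoc, Finset.mul_sum]

theorem dr_zero : R.dr (0 : Mt N A) = 0 := by
  ext i j
  simp only [dr_apply, Matrix.zero_apply, zero_mul, Finset.sum_const_zero]

theorem dr_sum {ι : Type*} (s : Finset ι) (X : ι → Mt N A) :
    R.dr (∑ i ∈ s, X i) = ∑ i ∈ s, R.dr (X i) := by
  classical
  induction s using Finset.induction_on with
  | empty => rw [Finset.sum_empty, Finset.sum_empty, dr_zero]
  | insert a s ha ih => rw [Finset.sum_insert ha, Finset.sum_insert ha, dr_add, ih]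

theorem dr_neg (X : Mt N A) : R.dr (-X) = -R.dr X := by
  rw [← neg_one_smul A X, dr_smul, neg_one_smul]

theorem dr_sub (X Y : Mt N A) : R.dr (X - Y) = R.dr X - R.dr Y := by
  rw [sub_eq_add_neg, dr_add, dr_neg, ← sub_eq_add_neg]

theorem dr_map (f : A →ₐ[ℂ] B) (X : Mt N A) : R.dr (X.map f) = (R.dr X).map f := by
  ext i j
  rw [Matrix.map_apply, dr_apply, dr_apply, map_sum]
  refine Finset.sum_congr rfl fun p _ => ?_
  rw [map_mul, AlgHom.commutes, Matrix.map_apply]

theorem dr_cm (X : Mt N ℂ) : R.dr (cm A X) = cI A (R.dr X) :=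
  R.dr_map (Algebra.ofId ℂ A) X

/-- The differential, as a linear map over the complex numbers. -/
def drL : lieAlg Γ →ₗ[ℂ] Matrix I I ℂ where
  toFun X := R.dr (X : Mt N ℂ)
  map_add' X Y := R.dr_add _ _
  map_smul' c X := R.dr_smul c _

theorem drL_apply (X : lieAlg Γ) : R.drL X = R.dr (X : Mt N ℂ) := rfl

theorem dr_toG (v : Fin (dm Γ) → A) :
    R.dr (toG Γ v) = ∑ i, v i • cI A (R.drL (bs Γ i)) := by
  rw [toG, dr_sum]
  refine Finset.sum_congr rfl fun i _ => ?_
  rw [dr_smul, dr_cm, drL_apply]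

/-- The point `1 + ε X`. -/
def eps {X : Mt N A} (hX : IsLi Γ X) : Gr Γ (DualNumber A) := Gr.mk' (du 1 X) hX

theorem mx_eps {X : Mt N A} (hX : IsLi Γ X) : mx (eps hX) = du 1 X := rfl

/-- The differential of the representation at the identity. -/
theorem r_eps {X : Mt N A} (hX : IsLi Γ X) : R.r (eps hX) = dI 1 (R.dr X) := by
  refine Matrix.ext fun i j => ?_
  rw [r_apply, mx_eps, ev_du, dI_apply]
  have h1 : ev (1 : Mt N A) (R.pl i j) = (1 : Matrix I I A) i j := by
    have h := R.r_apply (1 : Gr Γ A) i j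
    rw [map_one] at h
    exact h.symm
  have h2 : ∀ p, dcf (1 : Mt N A) p (R.pl i j) =
      algebraMap ℂ A (dcf (1 : Matrix (Fin N) (Fin N) ℂ) p (R.pl i j)) := by
    intro p
    have h3 : (1 : Mt N A) = cm A (1 : Mt N ℂ) := cm_one.symm
    rw [dcf, dcf, h3, ev_cm]
  rw [h1, dr_apply, Finset.sum_congr rfl fun p _ => congrArg (X p.1 p.2 * ·) (h2 p)]

theorem r_inl (x : Gr Γ A) : R.r (gm (inlA A) x) = dI (R.r x) 0 := by
  rw [R.nat, map_inlA_I]

/-- The value of the representation at `x + ε y`. -/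
theorem r_du {x : Gr Γ A} {y : Mt N A} (h : IsPt Γ (du (mx x) y)) :
    R.r (Gr.mk' (du (mx x) y) h) = dI (R.r x) (R.r x * R.dr ((mx x).adjugate * y)) := by
  have h1 : IsLi Γ ((mx x).adjugate * y) := by
    have h2 := (isPt_mx x).adjugate.du.mul h
    rw [du_mul, (isPt_mx x).adj_mul, Matrix.zero_mul, add_zero] at h2
    exact h2
  have h3 : Gr.mk' (du (mx x) y) h = gm (inlA A) x * eps h1 := by
    apply Gr.ext'
    change du (mx x) y = (mx x).map (inlA A) * du 1 ((mx x).adjugate * y)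
    rw [map_inlA, du_mul, Matrix.mul_one, Matrix.zero_mul, add_zero, ← Matrix.mul_assoc,
      (isPt_mx x).mul_adj, Matrix.one_mul]
  rw [h3, map_mul, r_inl, r_eps, dI_mul, Matrix.mul_one, Matrix.zero_mul, add_zero]

/-- Derivatives of the matrix of a point. -/
theorem r_der (v : Derivation ℂ A A) (x : Gr Γ A) :
    (R.r x).map v = R.r x * R.dr ((mx x).adjugate * (mx x).map v) := by
  have h1 : R.r (gm (derA v) x) = dI (R.r x) ((R.r x).map v) := by
    rw [R.nat, map_derA_I]
  have h3 : IsPt Γ (du (mx x) ((mx x).map v)) := (isPt_mx x).map (derA v)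
  have h2 : gm (derA v) x = Gr.mk' (du (mx x) ((mx x).map v)) h3 := Gr.ext' rfl
  rw [h2, R.r_du h3] at h1
  exact (dI_snd h1).symm

/-- The equivariance of the differential. -/
theorem dr_conj {X : Mt N A} (hX : IsLi Γ X) (x : Gr Γ A) :
    R.dr (mx x * X * (mx x).adjugate) = R.r x * R.dr X * R.r x⁻¹ := by
  have h1 : IsLi Γ (mx x * X * (mx x).adjugate) := IsLi.conj (isPt_mx x) hX
  have h2 : eps h1 = gm (inlA A) x * eps hX * (gm (inlA A) x)⁻¹ := by
    rw [eq_mul_inv_iff_mul_eq]
    apply Gr.ext'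
    change du 1 (mx x * X * (mx x).adjugate) * (mx x).map (inlA A) =
      (mx x).map (inlA A) * du 1 X
    rw [map_inlA, du_mul, du_mul, Matrix.one_mul, Matrix.mul_zero, zero_add, Matrix.mul_one,
      Matrix.zero_mul, add_zero, Matrix.mul_assoc, (isPt_mx x).adj_mul, Matrix.mul_one]
  have h3 := congrArg R.r h2
  rw [map_mul, map_mul, ← gm_inv, r_eps, r_eps, r_inl, r_inl, dI_mul, dI_mul] at h3
  have h4 := dI_snd h3
  rw [h4, Matrix.mul_zero, Matrix.zero_mul, zero_add, add_zero]

/-- The differential is a homomorphism of Lie algebras. -/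
theorem dr_lie {X Y : Mt N A} (hX : IsLi Γ X) (hY : IsLi Γ Y) :
    R.dr (X * Y - Y * X) = R.dr X * R.dr Y - R.dr Y * R.dr X := by
  have hY' : IsLi Γ (Y.map (inlA A)) := hY.map _
  have h1 := R.dr_conj hY' (eps hX)
  rw [mx_eps, adj_du_one X hX, dr_map, map_inlA, du_mul, du_mul, r_eps, map_inlA_I] at h1
  have h2 : R.r (eps hX)⁻¹ = dI 1 (-R.dr X) := by
    have h3 : dI (1 : Matrix I I A) (-R.dr X) * dI 1 (R.dr X) = 1 := by
      rw [dI_mul, Matrix.one_mul, Matrix.one_mul, Matrix.mul_one, add_neg_cancel]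
      ext i j
      · rw [dI_apply, Matrix.one_apply, Matrix.one_apply]; split_ifs <;> simp
      · rw [dI_apply, Matrix.one_apply, Matrix.one_apply]; split_ifs <;> simp
    calc R.r (eps hX)⁻¹ = dI (1 : Matrix I I A) (-R.dr X) * dI 1 (R.dr X) * R.r (eps hX)⁻¹ := by
          rw [h3, Matrix.one_mul]
      _ = dI 1 (-R.dr X) := by
          rw [Matrix.mul_assoc, ← R.r_eps hX, R.mul_inv, Matrix.mul_one]
  rw [h2, dI_mul, dI_mul] at h1
  have h6 : ∀ (U V : Mt N A), R.dr (du U V) = dI (R.dr U) (R.dr V) := by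
    intro U V
    have h8 : ∀ c : ℂ, algebraMap ℂ (DualNumber A) c = TrivSqZeroExt.inl (algebraMap ℂ A c) :=
      fun _ => rfl
    ext i j
    · rw [dr_apply, dI_apply, TrivSqZeroExt.fst_add, TrivSqZeroExt.fst_inl,
        TrivSqZeroExt.fst_inr, add_zero, TrivSqZeroExt.fst_sum, dr_apply]
      refine Finset.sum_congr rfl fun p _ => ?_
      rw [h8, du_apply, TrivSqZeroExt.fst_mul]
      simp
    · rw [dr_apply, dI_apply, TrivSqZeroExt.snd_add, TrivSqZeroExt.snd_inl,
        TrivSqZeroExt.snd_inr, zero_add, TrivSqZeroExt.snd_sum, dr_apply]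
      refine Finset.sum_congr rfl fun p _ => ?_
      rw [h8, du_apply, TrivSqZeroExt.snd_mul]
      simp [mul_comm]
  rw [h6] at h1
  have h7 := dI_snd h1
  simp only [Matrix.mul_one, Matrix.one_mul, Matrix.mul_zero, Matrix.zero_mul, zero_add, add_zero,
    Matrix.mul_neg] at h7
  rw [show X * Y - Y * X = -(Y * X) + X * Y by abel, h7]
  abel

section Forms

theorem mc_aux {M κ : Type} [AddCommGroup M] [Module A M] [Fintype κ] (U V : Matrix I I A)
    (C : κ → Matrix I I A) (h : U * V = 1) (D : I → M) (t : κ → M) (i j : I)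
    (hD : ∀ k, D k = ∑ l, (V * C l) k j • t l) : ∑ k, U i k • D k = ∑ l, C l i j • t l := by
  have h1 : ∀ k ∈ Finset.univ, U i k • D k = ∑ l, (U i k * (V * C l) k j) • t l := by
    intro k _
    rw [hD, Finset.smul_sum]
    exact Finset.sum_congr rfl fun l _ => smul_smul _ _ _
  rw [Finset.sum_congr rfl h1, Finset.sum_comm]
  refine Finset.sum_congr rfl fun l _ => ?_
  rw [← Finset.sum_smul, ← Matrix.mul_apply, ← Matrix.mul_assoc, h, Matrix.one_mul]

/-- Derivatives of the universal matrix: left invariant fields. -/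
theorem um_lX {X : Mt N ℂ} (hX : IsLi Γ X) : R.um.map (lX X hX) = R.um * cI (Of Γ) (R.dr X) := by
  have h := R.r_der (lX X hX) (ug Γ)
  rw [mx_ug, um_map_lX, ← Matrix.mul_assoc, um_adj_mul, Matrix.one_mul, dr_cm] at h
  exact h

/-- Derivatives of the universal matrix: right invariant fields. -/
theorem um_rX {X : Mt N ℂ} (hX : IsLi Γ X) : R.um.map (rX X hX) = cI (Of Γ) (R.dr X) * R.um := by
  have h := R.r_der (rX X hX) (ug Γ)
  have h1 : IsLi Γ (cm (Of Γ) X) := isLi_cm hX
  have h2 := R.dr_conj h1 (ug Γ)⁻¹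
  rw [← mx_inv, inv_inv, mx_inv, mx_ug, Matrix.mul_assoc, dr_cm] at h2
  rw [mx_ug, um_map_rX, h2, ← Matrix.mul_assoc, ← Matrix.mul_assoc, R.mul_inv,
    Matrix.one_mul] at h
  exact h

variable (hP : (vanI Γ).IsPrime)

include hP

/-- The differentials of the entries of the universal matrix. -/
theorem D_um (i j : I) : KaehlerDifferential.D ℂ (Of Γ) (R.um i j) =
    ∑ l, (R.um * cI (Of Γ) (R.drL (bs Γ l))) i j • th Γ l := by
  rw [D_eq hP]
  refine Finset.sum_congr rfl fun l _ => ?_
  have h := congrFun (congrFun (R.um_lX (isLi_bs l)) i) j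
  rw [Matrix.map_apply] at h
  rw [h, drL_apply]

/-- The entries of `ρ(g)⁻¹ dρ(g)` are the images of the coordinates of `g⁻¹ dg`. -/
theorem mc_um (i j : I) : ∑ k, R.ui i k • KaehlerDifferential.D ℂ (Of Γ) (R.um k j) =
    ∑ l, algebraMap ℂ (Of Γ) (R.drL (bs Γ l) i j) • th Γ l := by
  exact mc_aux R.ui R.um (fun l => cI (Of Γ) (R.drL (bs Γ l))) R.ui_um
    (fun k => KaehlerDifferential.D ℂ (Of Γ) (R.um k j)) (th Γ) i j (fun k => R.D_um hP k j)

end Forms

end Rpn

end

end Vale.Agent.P286.H987
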