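import Vale.Agent.P286.H987.EvMc
import Vale.Agent.P286.H166.Wk1
import Vale.Agent.P286.H710.Lam

/-!
# The evaluation as a morphism of graded differential spaces
-/

namespace Vale.Agent.P286.H987

open TensorProduct Matrix Vale.Agent.P286.H710 Vale.Agent.P286.H847 Vale.Agent.P286.H44
  Vale.Agent.P286.Gen Vale.Agent.P286.H295 Vale.Agent.P286.H103

noncomputable section

set_option linter.unusedSectionVars false

variable {I : Type} [Fintype I] [DecidableEq I] {n : ℕ} {B D : Type} [CommRing B] [Algebra ℂ B]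
  [CommRing D] [Algebra ℂ D] {N : ℕ} {Γ : Gps N} (R : Rpn Γ I)

/-- The evaluation at a point of the group. -/
def Rpn.evHom (n : ℕ) (x : Gr Γ B) : GD.Hom (WK I n).toGD (OmGD B) where
  f := (R.evx n x).toLinearMap
  comm w := R.evx_d x w
  deg _ _ hw := R.evx_mem x hw

theorem Rpn.evHom_apply (x : Gr Γ B) (w : Wk I n) : (R.evHom n x).f w = R.evx n x w := rfl

theorem Rpn.sgC_evHom (x : Gr Γ B) :
    SGD.SgC (E := WK I n) (E' := OmS B) (R.evHom n x).f := fun w => R.evx_sg x w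

/-- Naturality in the point. -/
theorem Rpn.pb_evHom (f : B →ₐ[ℂ] D) (x : Gr Γ B) :
    (OmGD.pb f).comp (R.evHom n x) = R.evHom n (gm f x) := by
  apply gd_hom_ext
  intro w
  exact R.pb_evx f x w

/-- The evaluation at the universal point. -/
abbrev Rpn.evU (n : ℕ) : GD.Hom (WK I n).toGD (OmGD (Of Γ)) := R.evHom n (ug Γ)

/-- The value at the identity, in the letters of the comparison with the fibre. -/
theorem Rpn.pb_evU_one (w : Wk I n) : Om.pb (hpt (1 : Gr Γ B)) ((R.evU n).f w) =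
    algebraMap ℂ (Om ℂ B) (Wk.eps I n w) := R.pb_evu_one w

/-- An involution is a quasi-isomorphism. -/
theorem qis_of_invol {M : GD} (u : GD.Hom M M) (h : ∀ x, u.f (u.f x) = x) : GD.Qis u :=
  GD.Qis.of_htpy u u 0 (fun _ _ _ => Submodule.zero_mem _)
    (fun m x _ => by rw [h, LinearMap.zero_apply, LinearMap.zero_apply, map_zero]; simp)
    0 (fun _ _ _ => Submodule.zero_mem _)
    (fun m x _ => by rw [h, LinearMap.zero_apply, LinearMap.zero_apply, map_zero]; simp)

/-- The inverse of the group, on functions. -/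
def invA (Γ : Gps N) : Of Γ →ₐ[ℂ] Of Γ := hpt (ug Γ)⁻¹

theorem gm_invA : gm (invA Γ) (ug Γ) = (ug Γ)⁻¹ := gm_hpt _

theorem invA_invA : (invA Γ).comp (invA Γ) = AlgHom.id ℂ (Of Γ) := by
  apply hom_ext_ug
  rw [← gm_gm, gm_invA, gm_inv, gm_invA, inv_inv, gm_id]

theorem qis_pb_invA (Γ : Gps N) : GD.Qis (OmGD.pb (invA Γ)) := by
  apply qis_of_invol
  intro x
  change Om.pb (invA Γ) (Om.pb (invA Γ) x) = x
  rw [Om.pb_pb, invA_invA, Om.pb_id]

/-- The evaluation at the universal point (`θ ↦ u d(u⁻¹)`) is a quasi-isomorphism if and only if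
the evaluation at its inverse (`θ ↦ u⁻¹ du`) is. -/
theorem Rpn.qis_evU_iff (R : Rpn Γ I) (n : ℕ) :
    GD.Qis (R.evU n) ↔ GD.Qis (R.evHom n (ug Γ)⁻¹) := by
  have h1 : (OmGD.pb (invA Γ)).comp (R.evU n) = R.evHom n (ug Γ)⁻¹ := by
    rw [Rpn.pb_evHom, gm_invA]
  constructor
  · intro h
    rw [← h1]
    exact GD.Qis.comp (qis_pb_invA Γ) h
  · intro h
    rw [← h1] at h
    exact GD.Qis.of_comp_left (qis_pb_invA Γ) h

/-- The values of the evaluation at the inverse of the universal point: `θ ↦ u⁻¹ du`. -/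
theorem Rpn.evx_inv_th (R : Rpn Γ I) (n : ℕ) (i j : I) : R.evx n (ug Γ)⁻¹ (Wk.th I n i j) =
    ∑ k, R.ui i k • Om.dd (R.um k j) := by
  rw [R.evx_th, inv_inv]
  rfl

/-- The values of the evaluation at the inverse of the universal point, in the left invariant
frame. -/
theorem Rpn.evx_inv_th' (R : Rpn Γ I) (hP : (vanI Γ).IsPrime) (n : ℕ) (i j : I) :
    R.evx n (ug Γ)⁻¹ (Wk.th I n i j) = ∑ l, R.drL (bs Γ l) i j • tho Γ l := by
  have h := congrArg (ExteriorAlgebra.ι (Of Γ)) (R.mc_um hP i j)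
  rw [R.evx_inv_th]
  rw [map_sum, map_sum] at h
  have h1 : ∀ k, ExteriorAlgebra.ι (Of Γ) (R.ui i k • KaehlerDifferential.D ℂ (Of Γ) (R.um k j)) =
      R.ui i k • (Om.dd (R.um k j) : Om ℂ (Of Γ)) := fun k => map_smul _ _ _
  have h2 : ∀ l, ExteriorAlgebra.ι (Of Γ) (algebraMap ℂ (Of Γ) (R.drL (bs Γ l) i j) • th Γ l) =
      R.drL (bs Γ l) i j • (tho Γ l : Om ℂ (Of Γ)) := fun l => by
    rw [map_smul]
    exact cst_smul _ _
  exact ((Finset.sum_congr rfl fun k _ => (h1 k).symm).trans h).trans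
    (Finset.sum_congr rfl fun l _ => h2 l)

end

end Vale.Agent.P286.H987
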