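import Vale.Agent.P286.H987.Inst
import Vale.Agent.P286.H295.SoG

/-!
# The standard representation of the special orthogonal group
-/

namespace Vale.Agent.P286.H987

open Matrix Vale.Agent.P286.Gen Vale.Agent.P286.H295

noncomputable section

/-- The standard representation of the special orthogonal group, in hyperbolic coordinates. -/
def FRep.so (n : ℕ) : FRep (GSo (2 * n + 1)) (H374.Dat.so n) :=
  FRep.antisymm fun Y => by
    rw [mem_lieAlg_GSo, eq_neg_iff_add_eq_zero]

end

end Vale.Agent.P286.H987
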