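import Vale.Agent.P286.H987.Gam
import Vale.Agent.P286.Gen.ObjD
import Vale.Agent.P286.So.Hom

/-!
# The vector representation of the spin group
-/

namespace Vale.Agent.P286.H987

open Matrix Polynomial Vale.Agent.P286.Gen

noncomputable section

set_option linter.unusedSectionVars false

variable {m N : ℕ} [NeZero N] (S : CSys m N) {A B : Type} [CommRing A] [Algebra ℂ A]
  [CommRing B] [Algebra ℂ B]

theorem isPt_Gr {Γ : Gps N} (x : Gr Γ A) : IsPt Γ x.1.1 := mem_GrS.1 x.2

/-- The vector representation `Spin(A) → SO_m(A)`. -/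
def vec : Gr (spin S) A →* So.SO m A where
  toFun x := ⟨⟨rho S x.1.1, rho_det S (isPt_Gr x)⟩, rho_orth S (isPt_Gr x)⟩
  map_one' := Subtype.ext (Subtype.ext (rho_one S))
  map_mul' x y := Subtype.ext (Subtype.ext (rho_mul S (isPt_Gr x) (isPt_Gr y)))

theorem vec_val (x : Gr (spin S) A) : (vec S x).1.1 = rho S x.1.1 := rfl

theorem vec_gm (f : A →ₐ[ℂ] B) (x : Gr (spin S) A) :
    vec S (gm f x) = So.somf (f : A →+* B) (vec S x) :=
  Subtype.ext (Subtype.ext (rho_map S f x.1.1).symm)

theorem trace_du (a b : Mt N A) :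
    trace (du a b) = TrivSqZeroExt.inl (trace a) + TrivSqZeroExt.inr (trace b) := by
  unfold trace
  rw [TrivSqZeroExt.inl_sum, TrivSqZeroExt.inr_sum, ← Finset.sum_add_distrib]
  rfl

theorem conj_du {X : Mt N A} (hX : IsLi (spin S) X) (Y : Mt N A) :
    du 1 X * du Y 0 * (du 1 X).adjugate = du Y (X * Y - Y * X) := by
  rw [adj_du_one X hX, du_mul, du_mul]
  congr 1
  · rw [one_mul, mul_one]
  · simp only [mul_one, one_mul, mul_zero, zero_add, mul_neg]
    abel

/-- The differential of the vector representation. -/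
theorem rho_du {X : Mt N A} (hX : IsLi (spin S) X) : rho S (du 1 X) = du 1 (drho S X) := by
  ext k j
  · rw [rho_apply, cm_dual, cm_dual, conj_du S hX, du_mul, trace_du, du_apply]
    have h1 := congrFun (congrFun (rho_one (A := A) S) k) j
    rw [rho_apply, adjugate_one, one_mul, mul_one] at h1
    have h2 : algebraMap ℂ (DualNumber A) (N : ℂ)⁻¹ =
      TrivSqZeroExt.inl (algebraMap ℂ A (N : ℂ)⁻¹) := rfl
    rw [h2, TrivSqZeroExt.fst_mul, TrivSqZeroExt.fst_add, TrivSqZeroExt.fst_inl,
      TrivSqZeroExt.fst_inl, TrivSqZeroExt.fst_inr, add_zero, h1]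
    simp
  · rw [rho_apply, cm_dual, cm_dual, conj_du S hX, du_mul, trace_du, du_apply, drho_apply]
    have h2 : algebraMap ℂ (DualNumber A) (N : ℂ)⁻¹ =
      TrivSqZeroExt.inl (algebraMap ℂ A (N : ℂ)⁻¹) := rfl
    rw [h2, zero_mul, add_zero, TrivSqZeroExt.snd_mul]
    simp

/-- The differential is equivariant. -/
theorem drho_conj {x X : Mt N A} (hx : IsPt (spin S) x) (hX : IsLi (spin S) X) :
    drho S (x * X * x.adjugate) = rho S x * drho S X * (rho S x).adjugate := by
  have h1 : IsPt (spin S) (du x 0) := hx.du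
  have h2 : du x 0 * du 1 X * (du x 0).adjugate = du 1 (x * X * x.adjugate) := by
    have h3 : (du x 0).adjugate = du x.adjugate 0 := by
      rw [← map_inlA, ← map_inlA]
      exact (AlgHom.map_adjugate (inlA A) x).symm
    rw [h3, du_mul, du_mul]
    congr 1
    · rw [mul_one, hx.mul_adj]
    · simp only [mul_one, mul_zero, zero_add, zero_mul, add_zero]
  have h4 : rho S (du x 0) = du (rho S x) 0 := by
    rw [← map_inlA, ← rho_map]
    ext i j
    · simp [inlA, du_apply]
    · simp [inlA, du_apply]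
  have h5 : IsPt (spin S) (du 1 X) := hX
  have h6 : rho S ((du x 0).adjugate) = (rho S (du x 0)).adjugate := by
    have h7 := rho_mul S h1 h1.adjugate
    rw [h1.mul_adj, rho_one] at h7
    calc rho S ((du x 0).adjugate) = ((rho S (du x 0)).adjugate * rho S (du x 0)) *
          rho S ((du x 0).adjugate) := by
          rw [Matrix.adjugate_mul, rho_det S h1, one_smul, one_mul]
      _ = (rho S (du x 0)).adjugate := by rw [mul_assoc, ← h7, mul_one]
  have h8 := rho_mul S (h1.mul h5) h1.adjugate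
  rw [h2, rho_mul S h1 h5, h6, h4, rho_du S hX] at h8
  have h9 : IsLi (spin S) (x * X * x.adjugate) := IsLi.conj hx hX
  rw [rho_du S h9] at h8
  have h10 : (du (rho S x) 0).adjugate = du (rho S x).adjugate 0 := by
    have e : ∀ y : Mt m A, du y 0 = y.map (inlA A) := by
      intro y
      ext i j
      · simp [inlA, du_apply]
      · simp [inlA, du_apply]
    rw [e, e]
    exact (AlgHom.map_adjugate (inlA A) (rho S x)).symm
  rw [h10, du_mul, du_mul] at h8
  ext i j
  have h11 := congrArg TrivSqZeroExt.snd (congrFun (congrFun h8 i) j)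
  rw [du_apply, du_apply] at h11
  simpa using h11

/-- The differential is a homomorphism of Lie algebras. -/
theorem drho_lie {X Y : Mt N A} (hX : IsLi (spin S) X) (hY : IsLi (spin S) Y) :
    drho S (X * Y - Y * X) = drho S X * drho S Y - drho S Y * drho S X := by
  ext k j
  have h1 : (X * Y - Y * X) * cm A (S.E j) - cm A (S.E j) * (X * Y - Y * X) =
      ∑ l, (drho S X * drho S Y - drho S Y * drho S X) l j • cm A (S.E l) := by
    have h2 : ∀ {X Y : Mt N A}, IsLi (spin S) X → IsLi (spin S) Y →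
        X * (Y * cm A (S.E j) - cm A (S.E j) * Y) - (Y * cm A (S.E j) - cm A (S.E j) * Y) * X =
        ∑ l, (drho S X * drho S Y) l j • cm A (S.E l) := by
      intro X Y hX hY
      rw [lie_E S hY, Finset.mul_sum, Finset.sum_mul, ← Finset.sum_sub_distrib]
      have h3 : ∀ k, X * drho S Y k j • cm A (S.E k) - drho S Y k j • cm A (S.E k) * X =
          ∑ l, (drho S X l k * drho S Y k j) • cm A (S.E l) := by
        intro k
        rw [mul_smul_comm, smul_mul_assoc, ← smul_sub, lie_E S hX, Finset.smul_sum]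
        refine Finset.sum_congr rfl fun l _ => ?_
        rw [smul_smul, mul_comm]
      rw [Finset.sum_congr rfl fun k _ => h3 k, Finset.sum_comm]
      refine Finset.sum_congr rfl fun l _ => ?_
      rw [← Finset.sum_smul, Matrix.mul_apply]
    have h4 : (X * Y - Y * X) * cm A (S.E j) - cm A (S.E j) * (X * Y - Y * X) =
        (X * (Y * cm A (S.E j) - cm A (S.E j) * Y) - (Y * cm A (S.E j) - cm A (S.E j) * Y) * X) -
        (Y * (X * cm A (S.E j) - cm A (S.E j) * X) -
          (X * cm A (S.E j) - cm A (S.E j) * X) * Y) := by noncomm_ring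
    rw [h4, h2 hX hY, h2 hY hX, ← Finset.sum_sub_distrib]
    refine Finset.sum_congr rfl fun l _ => ?_
    rw [Matrix.sub_apply, sub_smul]
  rw [drho_apply, h1, coef]

theorem neg_one_mem (hm : 3 ≤ m) : ∃ g ∈ spin S, g.1 = -1 := by
  obtain ⟨q, hpq, hqr⟩ := exists_ne_ne hm ⟨0, by omega⟩ ⟨1, by omega⟩
  have hpr : (⟨0, by omega⟩ : Fin m) ≠ ⟨1, by omega⟩ := by
    intro h
    have := congrArg Fin.val h
    simp at this
  generalize (⟨0, by omega⟩ : Fin m) = p at hpq hpr
  generalize (⟨1, by omega⟩ : Fin m) = r at hqr hpr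
  have hI : (-Complex.I) * (-Complex.I) = -1 := by rw [neg_mul_neg, Complex.I_mul_I]
  obtain ⟨g, hg, eg⟩ := exists_gen S hpq hpr hqr Complex.I_mul_I (1 / 2)
  obtain ⟨k, hk, ek⟩ := exists_gen S hpq hpr hqr hI (1 / 2)
  refine ⟨g * k * g * (g * k * g), by
    have := (spin S).mul_mem ((spin S).mul_mem hg hk) hg
    exact (spin S).mul_mem this this, ?_⟩
  change g.1 * k.1 * g.1 * (g.1 * k.1 * g.1) = -1
  rw [eg, ek]
  have e1 := nl_sq S hpq hpr hqr Complex.I_mul_I
  have e2 := nl_sq S hpq hpr hqr hI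
  have e3 : nl S p q r Complex.I * nl S p q r (-Complex.I) +
      nl S p q r (-Complex.I) * nl S p q r Complex.I = (-4 : ℂ) • (1 : Mt N ℂ) := by
    have h1 : ∀ c d : ℂ, nl S p q r c * nl S p q r d = -(iv S p q c * iv S p q d) := by
      intro c d
      unfold nl
      calc iv S p q c * S.E r * (iv S p q d * S.E r) =
            iv S p q c * (S.E r * iv S p q d) * S.E r := by simp only [mul_assoc]
        _ = iv S p q c * (-(iv S p q d * S.E r)) * S.E r := by
            rw [iv_ac S hpr hqr d, neg_neg]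
        _ = -(iv S p q c * iv S p q d * (S.E r * S.E r)) := by noncomm_ring
        _ = _ := by rw [S.sq, mul_one]
    rw [h1, h1]
    unfold iv
    simp only [mul_add, add_mul, smul_mul_assoc, mul_smul_comm, S.sq, smul_smul, smul_add]
    rw [S.ac p q hpq]
    have h2 : Complex.I * -Complex.I = 1 := by rw [mul_neg, Complex.I_mul_I, neg_neg]
    have h3 : -Complex.I * Complex.I = 1 := by rw [neg_mul, Complex.I_mul_I, neg_neg]
    rw [h2, h3, one_smul]
    have h4 : (-4 : ℂ) • (1 : Mt N ℂ) = -(1 + 1 + 1 + 1) := by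
      rw [neg_smul]
      congr 1
      have : (4 : ℂ) = 1 + 1 + 1 + 1 := by norm_num
      rw [this, add_smul, add_smul, add_smul, one_smul]
    rw [h4]
    simp only [smul_neg, neg_smul, neg_neg]
    abel
  generalize nl S p q r Complex.I = x at e1 e3
  generalize nl S p q r (-Complex.I) = y at e2 e3
  have e4 : y * x = (-4 : ℂ) • (1 : Mt N ℂ) - x * y := by rw [← e3]; abel
  have e5 : x * y * x = (-4 : ℂ) • x := by
    rw [mul_assoc, e4, mul_sub, mul_smul_comm, mul_one, ← mul_assoc, e1, zero_mul, sub_zero]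
  have e6 : (1 + (1 / 2 : ℂ) • x) * (1 + (1 / 2 : ℂ) • y) * (1 + (1 / 2 : ℂ) • x) =
      (1 / 2 : ℂ) • (x + y) := by
    have h1 : (1 + (1 / 2 : ℂ) • x) * (1 + (1 / 2 : ℂ) • y) * (1 + (1 / 2 : ℂ) • x) =
        1 + (1 / 2 : ℂ) • x + (1 / 2 : ℂ) • x + (1 / 2 : ℂ) • y + (1 / 4 : ℂ) • (x * y + y * x) +
          (1 / 4 : ℂ) • (x * x) + (1 / 8 : ℂ) • (x * y * x) := by
      simp only [mul_add, add_mul, one_mul, mul_one, smul_mul_assoc, mul_smul_comm, smul_smul,
        smul_add]
      norm_num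
      abel
    rw [h1, e3, e1, e5, smul_smul, smul_smul, smul_zero, add_zero]
    have h2 : (1 / 8 : ℂ) * -4 = -(1 / 2) := by norm_num
    have h3 : (1 / 4 : ℂ) * -4 = -1 := by norm_num
    rw [h2, h3, neg_smul, neg_smul, one_smul, smul_add]
    abel
  rw [e6, smul_mul_smul_comm, mul_add, add_mul, add_mul, e1, e2, zero_add, add_zero]
  have h5 : y * x + x * y = (-4 : ℂ) • (1 : Mt N ℂ) := by rw [← e3]; abel
  rw [h5, smul_smul]
  have h6 : (1 / 2 : ℂ) * (1 / 2) * -4 = -1 := by norm_num
  rw [h6, neg_smul, one_smul]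

end

end Vale.Agent.P286.H987
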