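import Vale.Agent.P286.H987.Rpn
import Vale.Agent.P286.H987.Rep
import Vale.Agent.P286.H295.SpL
import Vale.Agent.P286.H166.Cas5

/-!
# The standard representations of the symplectic, orthogonal and spin groups

`FRep Γ S`: a representation whose differential is an isomorphism of the Lie algebra of the group
with the Lie algebra of the datum `S`.
-/

namespace Vale.Agent.P286.H987

open Matrix Vale.Agent.P286.Gen Vale.Agent.P286.H295

noncomputable section

set_option linter.unusedSectionVars false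

section Form

variable {I : Type} [Fintype I] [DecidableEq I] (S : H374.Dat I)

/-- The matrix of the form of a datum. -/
def fJ : Matrix I I ℂ := fun i j => if j = S.p i then S.e i else 0

theorem fJ_apply (i j : I) : fJ S i j = if j = S.p i then S.e i else 0 := rfl

theorem fJ_mul (X : Matrix I I ℂ) (i j : I) : (fJ S * X) i j = S.e i * X (S.p i) j := by
  rw [Matrix.mul_apply, Finset.sum_eq_single (S.p i)]
  · rw [fJ_apply, if_pos rfl]
  · intro k _ hk
    rw [fJ_apply, if_neg hk, zero_mul]
  · intro h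
    exact absurd (Finset.mem_univ _) h

theorem mul_fJ (X : Matrix I I ℂ) (i j : I) : (X * fJ S) i j = X i (S.p j) * S.e (S.p j) := by
  rw [Matrix.mul_apply, Finset.sum_eq_single (S.p j)]
  · rw [fJ_apply, if_pos (S.pp j).symm]
  · intro k _ hk
    rw [fJ_apply, if_neg, mul_zero]
    intro h
    exact hk (by rw [h, S.pp])
  · intro h
    exact absurd (Finset.mem_univ _) h

theorem mem_iff (X : Matrix I I ℂ) : S.Mem X ↔ X.transpose * fJ S + fJ S * X = 0 := by
  have h0 : ∀ i j, (X.transpose * fJ S + fJ S * X) i j =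
      X (S.p j) i * (S.k * S.e j) + S.e i * X (S.p i) j := by
    intro i j
    rw [Matrix.add_apply, mul_fJ, fJ_mul, Matrix.transpose_apply, S.ek]
  constructor
  · intro h
    ext i j
    rw [h0, Matrix.zero_apply, h (S.p i) j, S.pp, S.ek]
    linear_combination (-(S.k * S.e j * X (S.p j) i)) * S.ee i
  · intro h i j
    have h1 := h0 (S.p i) j
    rw [h, Matrix.zero_apply, S.ek, S.pp] at h1
    linear_combination -(S.k * S.e i) * h1 - (S.e i * S.e j * X (S.p j) (S.p i) +
      S.e i * S.e i * X i j) * S.kk' i - X i j * S.ee i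

end Form

section Cob

variable {N : ℕ} {Γ : Gps N} {I K : Type} [Fintype I] [DecidableEq I] [Fintype K] [DecidableEq K]
  {A B : Type} [CommRing A] [Algebra ℂ A] [CommRing B] [Algebra ℂ B]

/-- A constant rectangular matrix. -/
def cR (A : Type) [CommRing A] [Algebra ℂ A] (X : Matrix I K ℂ) : Matrix I K A :=
  X.map (algebraMap ℂ A)

theorem cR_apply (X : Matrix I K ℂ) (i : I) (j : K) : cR A X i j = algebraMap ℂ A (X i j) := rfl

theorem cR_mul {L : Type} [Fintype L] [DecidableEq L] (X : Matrix I K ℂ) (Y : Matrix K L ℂ) :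
    cR A (X * Y) = cR A X * cR A Y := Matrix.map_mul (f := algebraMap ℂ A)

theorem cR_one : cR A (1 : Matrix I I ℂ) = 1 := Matrix.map_one _ (map_zero _) (map_one _)

theorem cR_map (f : A →ₐ[ℂ] B) (X : Matrix I K ℂ) : (cR A X).map f = cR B X := by
  ext i j
  exact f.commutes _

/-- Change of coordinates of a representation. -/
def Rpn.cob (R : Rpn Γ I) (U : Matrix K I ℂ) (T : Matrix I K ℂ) (hTU : T * U = 1)
    (hUT : U * T = 1) : Rpn Γ K where
  r {A} _ _ :=
    { toFun := fun x => cR A U * R.r x * cR A T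
      map_one' := by rw [map_one, Matrix.mul_one, ← cR_mul, hUT, cR_one]
      map_mul' := fun x y => by
        rw [map_mul]
        have h : cR A T * cR A U = 1 := by rw [← cR_mul, hTU, cR_one]
        calc cR A U * (R.r x * R.r y) * cR A T =
            cR A U * R.r x * (1 : Matrix I I A) * (R.r y * cR A T) := by
              rw [Matrix.mul_one]
              simp only [Matrix.mul_assoc]
          _ = cR A U * R.r x * cR A T * (cR A U * R.r y * cR A T) := by
              rw [← h]
              simp only [Matrix.mul_assoc] }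
  nat {A B} _ _ _ _ f x := by
    change cR B U * R.r (gm f x) * cR B T = (cR A U * R.r x * cR A T).map f
    rw [Matrix.map_mul, Matrix.map_mul, R.nat, cR_map, cR_map]

theorem Rpn.cob_r (R : Rpn Γ I) (U : Matrix K I ℂ) (T : Matrix I K ℂ) (hTU : T * U = 1)
    (hUT : U * T = 1) (x : Gr Γ A) : (R.cob U T hTU hUT).r x = cR A U * R.r x * cR A T := rfl

theorem snd_mul_c (U : Matrix K I ℂ) (M : Matrix I I (DualNumber A)) (T : Matrix I K ℂ) (i j : K) :
    TrivSqZeroExt.snd ((cR (DualNumber A) U * M * cR (DualNumber A) T) i j) =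
      (cR A U * (Matrix.of fun a b => TrivSqZeroExt.snd (M a b)) * cR A T) i j := by
  have h8 : ∀ c : ℂ, algebraMap ℂ (DualNumber A) c = TrivSqZeroExt.inl (algebraMap ℂ A c) :=
    fun _ => rfl
  rw [Matrix.mul_apply, Matrix.mul_apply, TrivSqZeroExt.snd_sum]
  refine Finset.sum_congr rfl fun l _ => ?_
  rw [cR_apply, h8, TrivSqZeroExt.snd_mul, Matrix.mul_apply, Matrix.mul_apply,
    TrivSqZeroExt.snd_sum, TrivSqZeroExt.snd_inl, smul_zero, zero_add,
    TrivSqZeroExt.fst_inl, MulOpposite.smul_eq_mul_unop, MulOpposite.unop_op, cR_apply]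
  congr 1
  refine Finset.sum_congr rfl fun k _ => ?_
  rw [cR_apply, h8, TrivSqZeroExt.snd_mul, TrivSqZeroExt.snd_inl, TrivSqZeroExt.fst_inl, cR_apply]
  simp

/-- The differential after a change of coordinates. -/
theorem Rpn.cob_dr (R : Rpn Γ I) (U : Matrix K I ℂ) (T : Matrix I K ℂ) (hTU : T * U = 1)
    (hUT : U * T = 1) {X : Mt N A} (hX : IsLi Γ X) :
    (R.cob U T hTU hUT).dr X = cR A U * R.dr X * cR A T := by
  have h1 := (R.cob U T hTU hUT).r_eps hX
  rw [R.cob_r, R.r_eps] at h1
  ext i j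
  have h2 := congrArg TrivSqZeroExt.snd (congrFun (congrFun h1 i) j)
  rw [snd_mul_c, dI_apply] at h2
  have h3 : (Matrix.of fun a b => TrivSqZeroExt.snd (dI (1 : Matrix I I A) (R.dr X) a b)) =
      R.dr X := by
    ext a b
    rw [Matrix.of_apply, dI_apply]
    simp
  rw [h3] at h2
  rw [h2]
  simp

theorem cR_cplx (X : Matrix I K ℂ) : cR ℂ X = X := by
  ext i j
  rfl

/-- The inclusion of a group of matrices. -/
def Rpn.incl (Γ : Gps N) : Rpn Γ (Fin N) where
  r {A} _ _ :=
    { toFun := fun x => mx x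
      map_one' := mx_one
      map_mul' := mx_mul }
  nat {A B} _ _ _ _ f x := mx_gm f x

theorem Rpn.incl_r (x : Gr Γ A) : (Rpn.incl Γ).r x = mx x := rfl

theorem Rpn.incl_dr {X : Mt N A} (hX : IsLi Γ X) : (Rpn.incl Γ).dr X = X := by
  have h1 := (Rpn.incl Γ).r_eps hX
  rw [Rpn.incl_r, mx_eps] at h1
  exact (dI_snd (x := 1) (y := X) h1).symm

end Cob

section Spin

variable {m N : ℕ} [NeZero N] (S : CSys m N) {A B : Type} [CommRing A] [Algebra ℂ A]
  [CommRing B] [Algebra ℂ B]

/-- The vector representation of the spin group. -/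
def Rpn.vec : Rpn (spin S) (Fin m) where
  r {A} _ _ :=
    { toFun := fun x => rho S (mx x)
      map_one' := rho_one S
      map_mul' := fun x y => rho_mul S (isPt_mx x) (isPt_mx y) }
  nat {A B} _ _ _ _ f x := (rho_map S f (mx x)).symm

theorem Rpn.vec_r (x : Gr (spin S) A) : (Rpn.vec S).r x = rho S (mx x) := rfl

theorem Rpn.vec_dr {X : Mt N A} (hX : IsLi (spin S) X) : (Rpn.vec S).dr X = drho S X := by
  have h1 := (Rpn.vec S).r_eps hX
  rw [Rpn.vec_r, mx_eps, rho_du S hX] at h1
  exact (dI_snd (x := 1) (y := drho S X) h1).symm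

end Spin

/-- A representation whose differential is an isomorphism with the Lie algebra of a datum. -/
structure FRep {N : ℕ} (Γ : Gps N) {I : Type} [Fintype I] [DecidableEq I] (S : H374.Dat I) where
  /-- the representation -/
  R : Rpn Γ I
  mem : ∀ X : lieAlg Γ, R.drL X ∈ H166.lieS S
  inj : Function.Injective R.drL
  surj : ∀ Y ∈ H166.lieS S, ∃ X : lieAlg Γ, R.drL X = Y

namespace FRep

variable {N : ℕ} {Γ : Gps N} {I : Type} [Fintype I] [DecidableEq I] {S : H374.Dat I}

/-- The differential, as an isomorphism. -/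
def equiv (P : FRep Γ S) : lieAlg Γ ≃ₗ[ℂ] H166.lieS S :=
  LinearEquiv.ofBijective (P.R.drL.codRestrict (H166.lieS S) P.mem)
    ⟨fun x y h => P.inj (congrArg Subtype.val h), fun y => by
      obtain ⟨x, hx⟩ := P.surj y.1 y.2
      exact ⟨x, Subtype.ext hx⟩⟩

theorem equiv_val (P : FRep Γ S) (X : lieAlg Γ) : (P.equiv X : Matrix I I ℂ) = P.R.drL X := rfl

/-- A representation preserving a form, in suitable coordinates. -/
def ofForm {K : Type} [Fintype K] [DecidableEq K] (R : Rpn Γ K) (F : Matrix K K ℂ)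
    (U : Matrix I K ℂ) (T : Matrix K I ℂ) (hTU : T * U = 1) (hUT : U * T = 1)
    (hF : T.transpose * F * T = fJ S) (inj : Function.Injective R.drL)
    (rng : ∀ Y : Matrix K K ℂ, Y.transpose * F + F * Y = 0 ↔ ∃ X : lieAlg Γ, R.drL X = Y) :
    FRep Γ S where
  R := R.cob U T hTU hUT
  mem X := by
    have h1 := (rng (R.drL X)).2 ⟨X, rfl⟩
    have h2 : (R.cob U T hTU hUT).drL X = U * R.drL X * T := by
      rw [Rpn.drL_apply, R.cob_dr U T hTU hUT ((mem_lieAlg _).1 X.2), cR_cplx, cR_cplx,
        Rpn.drL_apply]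
    rw [H166.mem_lieS, mem_iff, h2, ← hF]
    calc (U * R.drL X * T).transpose * (T.transpose * F * T) +
          T.transpose * F * T * (U * R.drL X * T) =
          T.transpose * ((R.drL X).transpose * (T * U).transpose * F + F * (T * U) * R.drL X) * T := by
          simp only [Matrix.transpose_mul, Matrix.mul_add, Matrix.add_mul, Matrix.mul_assoc]
      _ = 0 := by
          rw [hTU, Matrix.transpose_one, Matrix.mul_one, Matrix.mul_one, h1, Matrix.mul_zero,
            Matrix.zero_mul]
  inj X Y h := by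
    have h2 : ∀ X, (R.cob U T hTU hUT).drL X = U * R.drL X * T := fun X => by
      rw [Rpn.drL_apply, R.cob_dr U T hTU hUT ((mem_lieAlg _).1 X.2), cR_cplx, cR_cplx,
        Rpn.drL_apply]
    apply inj
    rw [h2, h2] at h
    calc R.drL X = (T * U) * R.drL X * (T * U) := by rw [hTU, Matrix.one_mul, Matrix.mul_one]
      _ = T * (U * R.drL X * T) * U := by simp only [Matrix.mul_assoc]
      _ = T * (U * R.drL Y * T) * U := by rw [h]
      _ = (T * U) * R.drL Y * (T * U) := by simp only [Matrix.mul_assoc]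
      _ = R.drL Y := by rw [hTU, Matrix.one_mul, Matrix.mul_one]
  surj Y hY := by
    have h2 : ∀ X, (R.cob U T hTU hUT).drL X = U * R.drL X * T := fun X => by
      rw [Rpn.drL_apply, R.cob_dr U T hTU hUT ((mem_lieAlg _).1 X.2), cR_cplx, cR_cplx,
        Rpn.drL_apply]
    rw [H166.mem_lieS, mem_iff, ← hF] at hY
    have h3 : (T * Y * U).transpose * F + F * (T * Y * U) = 0 := by
      calc (T * Y * U).transpose * F + F * (T * Y * U) =
          (T * Y * U).transpose * F * (T * U) + (T * U).transpose * (F * (T * Y * U)) := by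
            rw [hTU, Matrix.transpose_one, Matrix.mul_one, Matrix.one_mul]
        _ = U.transpose * (Y.transpose * (T.transpose * F * T) + T.transpose * F * T * Y) * U := by
            simp only [Matrix.transpose_mul, Matrix.mul_add, Matrix.add_mul, Matrix.mul_assoc]
        _ = 0 := by rw [hY, Matrix.mul_zero, Matrix.zero_mul]
    obtain ⟨X, hX⟩ := (rng _).1 h3
    refine ⟨X, ?_⟩
    rw [h2, hX]
    calc U * (T * Y * U) * T = (U * T) * Y * (U * T) := by simp only [Matrix.mul_assoc]
      _ = Y := by rw [hUT, Matrix.one_mul, Matrix.mul_one]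

end FRep

section Sp

variable (n : ℕ)

/-- The indices of the symplectic space. -/
def phS : Fin n ⊕ Fin n ≃ Fin (2 * n) where
  toFun := Sum.elim (fun i => ⟨i, by omega⟩) (fun i => ⟨2 * n - 1 - i, by omega⟩)
  invFun a := if h : (a : ℕ) < n then Sum.inl ⟨a, h⟩ else Sum.inr ⟨2 * n - 1 - a, by omega⟩
  left_inv i := by
    rcases i with i | i
    · simp
    · have h : ¬ (2 * n - 1 - (i : ℕ) < n) := by omega
      refine (dif_neg h).trans ?_
      refine congrArg Sum.inr (Fin.ext ?_)
      change 2 * n - 1 - (2 * n - 1 - (i : ℕ)) = i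
      omega
  right_inv a := by
    by_cases h : (a : ℕ) < n
    · simp [h]
    · simp only [h, dite_false, Sum.elim_inr]
      ext
      simp only
      omega

theorem fm_phS : (Sp.fm (2 * n) ℂ).submatrix (phS n) (phS n) = fJ (H374.Dat.sp n) := by
  ext i j
  rw [Matrix.submatrix_apply, fJ_apply, Sp.fm, Matrix.of_apply]
  have e1 : ∀ i : Fin n, (phS n (Sum.inl i) : ℕ) = i := fun _ => rfl
  have e2 : ∀ i : Fin n, (phS n (Sum.inr i) : ℕ) = 2 * n - 1 - i := fun _ => rfl
  rcases i with i | i <;> rcases j with j | j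
  · rw [if_neg, if_neg]
    · simp [H374.Dat.sp]
    · intro h
      have := congrArg Fin.val h
      rw [Fin.val_rev, e1, e1] at this
      omega
  · have h1 : (phS n (Sum.inr j) = (phS n (Sum.inl i)).rev) ↔ j = i := by
      rw [Fin.ext_iff, Fin.val_rev, e1, e2, Fin.ext_iff]
      omega
    have h2 : ((phS n (Sum.inl i) : Fin (2 * n)) : ℕ) < 2 * n / 2 := by
      rw [e1]
      omega
    rw [if_pos h2]
    simp [H374.Dat.sp, h1]
  · have h1 : (phS n (Sum.inl j) = (phS n (Sum.inr i)).rev) ↔ j = i := by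
      rw [Fin.ext_iff, Fin.val_rev, e1, e2, Fin.ext_iff]
      omega
    have h2 : ¬ ((phS n (Sum.inr i) : Fin (2 * n)) : ℕ) < 2 * n / 2 := by
      rw [e2]
      omega
    rw [if_neg h2]
    simp [H374.Dat.sp, h1]
  · rw [if_neg, if_neg]
    · simp [H374.Dat.sp]
    · intro h
      have := congrArg Fin.val h
      rw [Fin.val_rev, e2, e2] at this
      omega

/-- The standard representation of the symplectic group. -/
def FRep.sp : FRep (GSp (2 * n)) (H374.Dat.sp n) :=
  FRep.ofForm (Rpn.incl _) (Sp.fm (2 * n) ℂ) ((1 : Mt (2 * n) ℂ).submatrix (phS n) id)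
    ((1 : Mt (2 * n) ℂ).submatrix id (phS n))
    (by
      have h := Matrix.submatrix_mul_equiv (1 : Mt (2 * n) ℂ) (1 : Mt (2 * n) ℂ) id (phS n) id
      rw [h, Matrix.mul_one, Matrix.submatrix_id_id])
    (by
      have h := Matrix.submatrix_mul_equiv (1 : Mt (2 * n) ℂ) (1 : Mt (2 * n) ℂ) (phS n)
        (Equiv.refl _) (phS n)
      refine h.trans ?_
      rw [Matrix.mul_one, Matrix.submatrix_one_equiv])
    (by
      rw [← fm_phS, Matrix.transpose_submatrix, Matrix.transpose_one]
      have h := Matrix.submatrix_mul_equiv (1 : Mt (2 * n) ℂ) (Sp.fm (2 * n) ℂ) (phS n)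
        (Equiv.refl _) id
      have h2 := Matrix.submatrix_mul_equiv (1 * Sp.fm (2 * n) ℂ) (1 : Mt (2 * n) ℂ) (phS n)
        (Equiv.refl _) (phS n)
      rw [Matrix.one_mul, Matrix.mul_one] at h2
      rw [Matrix.one_mul] at h
      exact (congrArg (· * (1 : Mt (2 * n) ℂ).submatrix id (phS n)) h).trans h2)
    (fun X Y h => by
      rw [Rpn.drL_apply, Rpn.drL_apply, Rpn.incl_dr ((mem_lieAlg _).1 X.2),
        Rpn.incl_dr ((mem_lieAlg _).1 Y.2)] at h
      exact Subtype.ext h)
    (fun Y => by
      rw [← mem_lieAlg_GSp (even_two_mul n) Y]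
      constructor
      · intro h
        exact ⟨⟨Y, h⟩, Rpn.incl_dr ((mem_lieAlg _).1 h)⟩
      · rintro ⟨X, hX⟩
        rw [Rpn.drL_apply, Rpn.incl_dr ((mem_lieAlg _).1 X.2)] at hX
        rw [← hX]
        exact X.2)

end Sp

section So

variable (n : ℕ)

/-- The indices of the orthogonal space. -/
abbrev IO : Type := (Fin n ⊕ Fin n) ⊕ Unit

/-- The hyperbolic basis in terms of the orthonormal basis. -/
def T0 : Matrix (IO n) (IO n) ℂ :=
  fromBlocks (fromBlocks 1 ((1 / 2 : ℂ) • 1) (Complex.I • 1) (-(Complex.I / 2) • 1)) 0 0 1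

theorem fJ_so : fJ (H374.Dat.so n) = fromBlocks (fromBlocks 0 1 1 0) 0 0 1 := by
  ext i j
  rcases i with (i | i) | i <;> rcases j with (j | j) | j <;>
    simp [fJ_apply, H374.Dat.so, Matrix.one_apply, eq_comm]

theorem T0_form : (T0 n).transpose * T0 n = fJ (H374.Dat.so n) := by
  rw [fJ_so, T0]
  have e : ∀ a b : ℂ, (a • (1 : Matrix (Fin n) (Fin n) ℂ)) * (b • 1) = (a * b) • 1 := by
    intro a b
    rw [Matrix.smul_mul, Matrix.mul_smul, Matrix.one_mul, smul_smul]
  have hI : Complex.I * Complex.I = -1 := Complex.I_mul_I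
  simp only [fromBlocks_transpose, fromBlocks_multiply, Matrix.transpose_one,
    Matrix.transpose_zero, Matrix.transpose_smul, Matrix.one_mul, Matrix.mul_one, e,
    Matrix.mul_zero, Matrix.zero_mul, add_zero, zero_add]
  congr 2
  · rw [hI, neg_one_smul, add_neg_cancel]
  · rw [← add_smul]
    have : (1 / 2 : ℂ) + Complex.I * -(Complex.I / 2) = 1 := by linear_combination (-1 / 2) * hI
    rw [this, one_smul]
  · rw [← add_smul]
    have : (1 / 2 : ℂ) + -(Complex.I / 2) * Complex.I = 1 := by linear_combination (-1 / 2) * hI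
    rw [this, one_smul]
  · rw [← add_smul]
    have : (1 / 2 : ℂ) * (1 / 2) + -(Complex.I / 2) * -(Complex.I / 2) = 0 := by
      linear_combination (1 / 4) * hI
    rw [this, zero_smul]

theorem fJ_so_sq : fJ (H374.Dat.so n) * fJ (H374.Dat.so n) = 1 := by
  rw [fJ_so]
  simp [fromBlocks_multiply]

/-- The indices of the orthogonal space. -/
def phO : IO n ≃ Fin (2 * n + 1) :=
  (Equiv.sumCongr finSumFinEquiv (Equiv.equivPUnit (Fin 1)).symm).trans
    (finSumFinEquiv.trans (finCongr (by omega)))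

theorem T0_inv : fJ (H374.Dat.so n) * (T0 n).transpose * T0 n = 1 := by
  rw [Matrix.mul_assoc, T0_form, fJ_so_sq]

theorem T0_inv' : T0 n * (fJ (H374.Dat.so n) * (T0 n).transpose) = 1 :=
  mul_eq_one_comm.1 (T0_inv n)

/-- A representation preserving the standard symmetric form, in hyperbolic coordinates. -/
def FRep.ofSymm {N : ℕ} {Γ : Gps N} (R : Rpn Γ (Fin (2 * n + 1)))
    (inj : Function.Injective R.drL)
    (rng : ∀ Y : Mt (2 * n + 1) ℂ, Y.transpose = -Y ↔ ∃ X : lieAlg Γ, R.drL X = Y) :
    FRep Γ (H374.Dat.so n) :=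
  FRep.ofForm R (1 : Mt (2 * n + 1) ℂ)
    ((fJ (H374.Dat.so n) * (T0 n).transpose).submatrix id (phO n).symm)
    ((T0 n).submatrix (phO n).symm id)
    (by
      have h := Matrix.submatrix_mul_equiv (T0 n) (fJ (H374.Dat.so n) * (T0 n).transpose)
        (phO n).symm (Equiv.refl _) (phO n).symm
      refine h.trans ?_
      rw [T0_inv', Matrix.submatrix_one_equiv])
    (by
      have h := Matrix.submatrix_mul_equiv (fJ (H374.Dat.so n) * (T0 n).transpose) (T0 n)
        id (phO n).symm id
      rw [h, T0_inv, Matrix.submatrix_id_id])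
    (by
      have h := Matrix.submatrix_mul_equiv (T0 n).transpose (T0 n) id (phO n).symm id
      rw [Matrix.mul_one, Matrix.transpose_submatrix, h, T0_form, Matrix.submatrix_id_id])
    inj
    (fun Y => by
      rw [← rng, Matrix.mul_one, Matrix.one_mul, eq_neg_iff_add_eq_zero])

end So

/-- The vector representation of the spin group of a system of gamma matrices. -/
def FRep.spinS {n N : ℕ} [NeZero N] (S : CSys (2 * n + 1) N) (hn : 0 < n) :
    FRep (spin S) (H374.Dat.so n) :=
  FRep.ofSymm n (Rpn.vec S)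
    (fun X Y h => by
      rw [Rpn.drL_apply, Rpn.drL_apply, Rpn.vec_dr _ ((mem_lieAlg _).1 X.2),
        Rpn.vec_dr _ ((mem_lieAlg _).1 Y.2)] at h
      apply Subtype.ext
      rw [← ofA_drho S ((mem_lieAlg _).1 X.2), h, ofA_drho S ((mem_lieAlg _).1 Y.2)])
    (fun Y => by
      constructor
      · intro h
        have h1 : ∀ k l, Y k l = -Y l k := fun k l => by
          have h2 := congrFun (congrFun h l) k
          rwa [Matrix.transpose_apply, Matrix.neg_apply] at h2
        have h3 : IsLi (spin S) (ofA S Y) := isLi_ofA S (by omega) Y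
        refine ⟨⟨ofA S Y, (mem_lieAlg _).2 h3⟩, ?_⟩
        rw [Rpn.drL_apply, Rpn.vec_dr _ h3, drho_ofA S h1]
      · rintro ⟨X, hX⟩
        rw [Rpn.drL_apply, Rpn.vec_dr _ ((mem_lieAlg _).1 X.2)] at hX
        rw [← hX]
        ext k l
        rw [Matrix.transpose_apply, Matrix.neg_apply, drho_anti])

/-- The vector representation of the concrete spin group. -/
def FRep.spn (n : ℕ) (hn : 0 < n) : FRep (Spn n) (H374.Dat.so n) := FRep.spinS (gam n) hn

/-- The standard representation of a group with the Lie algebra of antisymmetric matrices. -/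
def FRep.antisymm {n : ℕ} {Γ : Gps (2 * n + 1)}
    (h : ∀ Y : Mt (2 * n + 1) ℂ, Y ∈ lieAlg Γ ↔ Y.transpose = -Y) : FRep Γ (H374.Dat.so n) :=
  FRep.ofSymm n (Rpn.incl Γ)
    (fun X Y h => by
      rw [Rpn.drL_apply, Rpn.drL_apply, Rpn.incl_dr ((mem_lieAlg _).1 X.2),
        Rpn.incl_dr ((mem_lieAlg _).1 Y.2)] at h
      exact Subtype.ext h)
    (fun Y => by
      rw [← h Y]
      constructor
      · intro h
        exact ⟨⟨Y, h⟩, Rpn.incl_dr ((mem_lieAlg _).1 h)⟩
      · rintro ⟨X, hX⟩
        rw [Rpn.drL_apply, Rpn.incl_dr ((mem_lieAlg _).1 X.2)] at hX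
        rw [← hX]
        exact X.2)

end

end Vale.Agent.P286.H987
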