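import Vale.Agent.P286.H987.InstSo

/-!
# The group generated by the root elements contains the products of two unit vectors
-/

namespace Vale.Agent.P286.H987

open Matrix Polynomial Vale.Agent.P286.Gen

noncomputable section

set_option linter.unusedSectionVars false

section Ring

variable {R : Type*} [Ring R] [Algebra ℂ R]

/-- The torus of `SL_2`. -/
theorem sl2_torus {X Y : R} (hX : X * X = 0) (hY : Y * Y = 0) (h : X * Y + Y * X = 1) {l l' : ℂ}
    (hl : l * l' = 1) :
    ((1 + l • X) * (1 + (-l') • Y) * (1 + l • X)) *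
      ((1 + (-1 : ℂ) • X) * (1 + (1 : ℂ) • Y) * (1 + (-1 : ℂ) • X)) =
        l • (X * Y) + l' • (Y * X) := by
  have h1 : X * Y * X = X := by
    have : Y * X = 1 - X * Y := by rw [← h]; abel
    rw [mul_assoc, this, mul_sub, mul_one, ← mul_assoc, hX, zero_mul, sub_zero]
  have hw : ∀ a b : ℂ, a * b = 1 → (1 + a • X) * (1 + (-b) • Y) * (1 + a • X) =
      a • X - b • Y := by
    intro a b hab
    have e1 : (1 + a • X) * (1 + (-b) • Y) * (1 + a • X) =
        1 + a • X + a • X + (a * a) • (X * X) - b • Y - (a * b) • (X * Y + Y * X) -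
          (a * b * a) • (X * Y * X) := by
      simp only [add_mul, mul_add, one_mul, mul_one, smul_mul_assoc, mul_smul_comm, smul_smul,
        neg_smul, smul_add, neg_mul, mul_neg, smul_neg]
      rw [show a * b * a = a * (b * a) by ring, show b * a = a * b by ring]
      abel_nf
    rw [e1, hX, h, h1, hab, smul_zero, one_mul, one_smul]
    abel
  have hw' := hw (-1) (-1) (by norm_num)
  rw [neg_neg] at hw'
  rw [hw l l' hl, hw', neg_smul, neg_smul, one_smul, one_smul, sub_mul, mul_sub, mul_sub]
  simp only [smul_mul_assoc, mul_neg, hX, hY, smul_zero]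
  abel_nf

end Ring

section Vec

variable {m : ℕ}

/-- The vector with two coordinates. -/
def v2 (i j : Fin m) (a b : ℂ) : Fin m → ℂ := fun l => if l = i then a else if l = j then b else 0

/-- The dot product with a vector with two coordinates. -/
theorem sum_v2 {i j : Fin m} (h : i ≠ j) (a b : ℂ) (w : Fin m → ℂ) :
    ∑ l, v2 i j a b l * w l = a * w i + b * w j := by
  have h1 : ∀ l, v2 i j a b l * w l =
      (if l = i then a * w l else 0) + (if l = j then b * w l else 0) := by
    intro l
    unfold v2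
    by_cases h1 : l = i
    · rw [if_pos h1, if_pos h1, if_neg (by rw [h1]; exact h), add_zero]
    · rw [if_neg h1, if_neg h1, zero_add, ite_mul, zero_mul]
  rw [Finset.sum_congr rfl fun l _ => h1 l, Finset.sum_add_distrib, Finset.sum_ite_eq',
    Finset.sum_ite_eq', if_pos (Finset.mem_univ i), if_pos (Finset.mem_univ j)]

/-- Every unit vector is obtained from the unit vectors with two coordinates by reflections. -/
theorem unit_ind (hm : 2 ≤ m) (T : Set (Fin m → ℂ))
    (h1 : ∀ i j, i ≠ j → ∀ a b : ℂ, a ^ 2 + b ^ 2 = 1 → v2 i j a b ∈ T)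
    (h2 : ∀ a ∈ T, ∀ b ∈ T, (fun l => 2 * (∑ i, b i * a i) * b l - a l) ∈ T) :
    ∀ (k : ℕ) (a : Fin m → ℂ), (Finset.univ.filter fun j => a j ≠ 0).card ≤ k →
      ∑ j, a j ^ 2 = 1 → a ∈ T := by
  intro k
  induction k with
  | zero =>
    intro a ha hs
    have h0 : ∀ j, a j = 0 := by
      intro j
      by_contra hj
      have : j ∈ Finset.univ.filter fun j => a j ≠ 0 := by simpa using hj
      rw [Finset.card_eq_zero.1 (Nat.le_zero.1 ha)] at this
      exact absurd this (Finset.notMem_empty j)
    simp [h0] at hs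
  | succ k ih =>
    intro a ha hs
    have hex : ∃ i, a i ≠ 0 := by
      by_contra hh
      push Not at hh
      simp [hh] at hs
    obtain ⟨i, hi⟩ := hex
    by_cases hone : ∀ j, j ≠ i → a j = 0
    · obtain ⟨j, hj⟩ : ∃ j : Fin m, j ≠ i := by
        have : Nontrivial (Fin m) := Fin.nontrivial_iff_two_le.2 hm
        exact exists_ne i
      have hsum : ∑ l, a l ^ 2 = a i ^ 2 := by
        refine Finset.sum_eq_single i (fun l _ hl => ?_) (fun h => absurd (Finset.mem_univ i) h)
        rw [hone l hl]
        ring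
      have hv : v2 i j (a i) 0 = a := by
        funext l
        unfold v2
        by_cases hl : l = i
        · rw [if_pos hl, hl]
        · rw [if_neg hl, hone l hl, ite_self]
      rw [← hv]
      refine h1 i j (Ne.symm hj) (a i) 0 ?_
      rw [← hsum, hs]
      ring
    · push Not at hone
      obtain ⟨j0, hj0, hj0'⟩ := hone
      have hpair : ∃ i j, i ≠ j ∧ a i ≠ 0 ∧ a j ≠ 0 ∧ a i ^ 2 + a j ^ 2 ≠ 0 := by
        by_contra hh
        push Not at hh
        have e1 := hh j0 i hj0 hj0' hi
        have hz : ∀ l, l ≠ j0 → l ≠ i → a l = 0 := by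
          intro l hl hl'
          by_contra hl0
          have e2 := hh l i hl' hl0 hi
          have e3 := hh l j0 hl hl0 hj0'
          have e4 : a i ^ 2 = 0 := by linear_combination (1 / 2 : ℂ) * (e1 + e2 - e3)
          exact hi (pow_eq_zero_iff (two_ne_zero) |>.1 e4)
        have hsum : ∑ l, a l ^ 2 = a j0 ^ 2 + a i ^ 2 := by
          have e5 := sum_v2 hj0 1 1 (fun l => a l ^ 2)
          rw [one_mul, one_mul] at e5
          rw [← e5]
          refine Finset.sum_congr rfl fun l _ => ?_
          unfold v2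
          by_cases hl : l = j0
          · rw [if_pos hl, one_mul]
          · rw [if_neg hl]
            by_cases hl' : l = i
            · rw [if_pos hl', one_mul]
            · rw [if_neg hl', hz l hl hl', zero_mul]
              ring
        rw [hs, e1] at hsum
        exact one_ne_zero hsum
      obtain ⟨i, j, hij, hi, hj, hn⟩ := hpair
      obtain ⟨ρ, hρ⟩ : ∃ ρ : ℂ, ρ ^ 2 = a i ^ 2 + a j ^ 2 :=
        IsAlgClosed.exists_pow_nat_eq _ two_pos
      have hρ0 : ρ ≠ 0 := by
        intro h
        rw [h] at hρ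
        exact hn (by rw [← hρ]; ring)
      obtain ⟨α, hα⟩ : ∃ α : ℂ, α ^ 2 = (1 + a i / ρ) / 2 :=
        IsAlgClosed.exists_pow_nat_eq _ two_pos
      have hα0 : α ≠ 0 := by
        intro h
        rw [h] at hα
        have e1 : a i = -ρ := by
          have : a i / ρ = -1 := by linear_combination -2 * hα
          rw [div_eq_iff hρ0] at this
          rw [this]
          ring
        have e2 : a j ^ 2 = 0 := by linear_combination -hρ - (a i - ρ) * e1
        exact hj (pow_eq_zero_iff two_ne_zero |>.1 e2)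
      have hβ : α ^ 2 + (a j / (2 * α * ρ)) ^ 2 = 1 := by
        have e1 : (a j / (2 * α * ρ)) ^ 2 = a j ^ 2 / (4 * α ^ 2 * ρ ^ 2) := by
          field_simp
          ring
        have e2 : 1 + a i / ρ ≠ 0 := by
          intro h
          rw [h, zero_div] at hα
          exact hα0 (pow_eq_zero_iff two_ne_zero |>.1 hα)
        have e3 : ρ + a i ≠ 0 := by
          intro h
          apply e2
          field_simp
          linear_combination h
        rw [e1, hα]
        have e4 : a j ^ 2 = (ρ - a i) * (ρ + a i) := by linear_combination -hρ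
        rw [e4]
        field_simp
        ring
      set β := a j / (2 * α * ρ) with hβd
      let a' : Fin m → ℂ := fun l => if l = i then ρ else if l = j then 0 else a l
      have ha'i : a' i = ρ := if_pos rfl
      have ha'j : a' j = 0 := by
        change (if j = i then ρ else if j = j then 0 else a j) = 0
        rw [if_neg (Ne.symm hij), if_pos rfl]
      have ha'l : ∀ l, l ≠ i → l ≠ j → a' l = a l := by
        intro l hl hl'
        change (if l = i then ρ else if l = j then 0 else a l) = a l
        rw [if_neg hl, if_neg hl']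
      have hs' : ∑ l, a' l ^ 2 = 1 := by
        have e1 : ∀ l, a' l ^ 2 = a l ^ 2 + v2 i j (ρ ^ 2 - a i ^ 2) (-a j ^ 2) l := by
          intro l
          unfold v2
          by_cases hl : l = i
          · rw [hl, ha'i, if_pos rfl]
            ring
          · by_cases hl' : l = j
            · rw [hl', ha'j, if_neg (Ne.symm hij), if_pos rfl]
              ring
            · rw [ha'l l hl hl', if_neg hl, if_neg hl', add_zero]
        have e2 := sum_v2 hij (ρ ^ 2 - a i ^ 2) (-a j ^ 2) (fun _ => 1)
        rw [Finset.sum_congr rfl fun l _ => e1 l, Finset.sum_add_distrib, hs]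
        have e3 : ∑ l, v2 i j (ρ ^ 2 - a i ^ 2) (-a j ^ 2) l = 0 := by
          simp only [mul_one] at e2
          rw [e2, hρ]
          ring
        rw [e3, add_zero]
      have hc' : (Finset.univ.filter fun l => a' l ≠ 0).card ≤ k := by
        have e1 : (Finset.univ.filter fun l => a' l ≠ 0) ⊆
            (Finset.univ.filter fun l => a l ≠ 0).erase j := by
          intro l hl
          rw [Finset.mem_filter] at hl
          rw [Finset.mem_erase, Finset.mem_filter]
          have hlj : l ≠ j := by
            intro h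
            rw [h] at hl
            exact hl.2 ha'j
          refine ⟨hlj, Finset.mem_univ l, ?_⟩
          by_cases hli : l = i
          · rw [hli]
            exact hi
          · have := hl.2
            rwa [ha'l l hli hlj] at this
        have e2 := Finset.card_le_card e1
        have e3 : j ∈ Finset.univ.filter fun l => a l ≠ 0 :=
          Finset.mem_filter.2 ⟨Finset.mem_univ j, hj⟩
        rw [Finset.card_erase_of_mem e3] at e2
        omega
      have hT' := ih a' hc' hs'
      have hT1 := h2 a' hT' (v2 i j 1 0) (h1 i j hij 1 0 (by ring))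
      have hT2 := h2 _ hT1 (v2 i j α β) (h1 i j hij α β hβ)
      have hfin : (fun l => 2 * (∑ i_1, v2 i j α β i_1 *
          (2 * (∑ i_2, v2 i j 1 0 i_2 * a' i_2) * v2 i j 1 0 i_1 - a' i_1)) * v2 i j α β l -
            (2 * (∑ i_1, v2 i j 1 0 i_1 * a' i_1) * v2 i j 1 0 l - a' l)) = a := by
        have e1 : ∑ i_1, v2 i j 1 0 i_1 * a' i_1 = ρ := by
          rw [sum_v2 hij, ha'i, ha'j]
          ring
        have ei : ∀ x y : ℂ, v2 i j x y i = x := fun x y => if_pos rfl
        have ej : ∀ x y : ℂ, v2 i j x y j = y := fun x y => by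
          unfold v2
          rw [if_neg (Ne.symm hij), if_pos rfl]
        rw [e1, sum_v2 hij, ei, ej, ha'i, ha'j]
        have e2 : 2 * α ^ 2 * ρ - ρ = a i := by
          rw [hα]
          field_simp
          ring
        have e3 : 2 * α * ρ * β = a j := by
          rw [hβd]
          field_simp
        funext l
        by_cases hl : l = i
        · rw [hl, ei, ei, ha'i]
          linear_combination e2
        · by_cases hl' : l = j
          · rw [hl', ej, ej, ha'j]
            linear_combination e3
          · have e4 : ∀ x y : ℂ, v2 i j x y l = 0 := fun x y => by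
              unfold v2
              rw [if_neg hl, if_neg hl']
            rw [e4, e4, ha'l l hl hl']
            ring
      rw [hfin] at hT2
      exact hT2

end Vec

section Grp

variable {m N : ℕ} (S : CSys m N)

/-- The matrices of the elements of the group. -/
def GM : Set (Mt N ℂ) := {M | ∃ g ∈ spin S, g.1 = M}

theorem GM_one : (1 : Mt N ℂ) ∈ GM S := ⟨1, Subgroup.one_mem _, rfl⟩

theorem GM_mul {M M' : Mt N ℂ} (h : M ∈ GM S) (h' : M' ∈ GM S) : M * M' ∈ GM S := by
  obtain ⟨g, hg, rfl⟩ := h
  obtain ⟨g', hg', rfl⟩ := h'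
  exact ⟨g * g', Subgroup.mul_mem _ hg hg', rfl⟩

theorem GM_inv {M M' : Mt N ℂ} (h : M ∈ GM S) (h' : M * M' = 1) : M' ∈ GM S := by
  obtain ⟨g, hg, rfl⟩ := h
  refine ⟨g⁻¹, Subgroup.inv_mem _ hg, ?_⟩
  have h1 : (g⁻¹).1 * g.1 = 1 := by
    have h2 : (g⁻¹ * g).1 = 1 := by rw [inv_mul_cancel]; rfl
    exact h2
  calc (g⁻¹).1 = (g⁻¹).1 * (g.1 * M') := by rw [h', mul_one]
    _ = M' := by rw [← mul_assoc, h1, one_mul]

theorem GM_root {p q r : Fin m} (hpq : p ≠ q) (hp : p ≠ r) (hq : q ≠ r) {c : ℂ}
    (hc : c * c = -1) (s : ℂ) : 1 + s • nl S p q r c ∈ GM S := exists_gen S hpq hp hq hc s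

/-- The sign of the conjugation by `E_k`. -/
def sk (k j : Fin m) : ℂ := if j = k then 1 else -1

theorem sk_sq (k j : Fin m) : sk k j * sk k j = 1 := by
  unfold sk
  split_ifs <;> norm_num

theorem conj_E' (k j : Fin m) : S.E k * S.E j * S.E k = sk k j • S.E j := by
  unfold sk
  by_cases h : j = k
  · rw [if_pos h, h, S.sq, one_mul, one_smul]
  · rw [if_neg h, mul_assoc, S.ac j k h, mul_neg, ← mul_assoc, S.sq, one_mul, neg_smul, one_smul]

theorem conj_root (k p q r : Fin m) (c s : ℂ) :
    S.E k * (1 + s • nl S p q r c) * S.E k =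
      1 + (s * sk k p * sk k r) • nl S p q r (c * sk k p * sk k q) := by
  have h1 : S.E k * (1 + s • nl S p q r c) * S.E k =
      1 + s • ((S.E k * S.E p * S.E k + c • (S.E k * S.E q * S.E k)) *
        (S.E k * S.E r * S.E k)) := by
    have h2 : (S.E k * S.E p * S.E k + c • (S.E k * S.E q * S.E k)) *
        (S.E k * S.E r * S.E k) = S.E k * nl S p q r c * S.E k := by
      have h3 : ∀ x y : Mt N ℂ, (S.E k * x * S.E k) * (S.E k * y * S.E k) =
          S.E k * (x * y) * S.E k := by
        intro x y
        calc (S.E k * x * S.E k) * (S.E k * y * S.E k) =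
              S.E k * x * (S.E k * S.E k) * y * S.E k := by simp only [mul_assoc]
          _ = _ := by rw [S.sq, mul_one, mul_assoc (S.E k) x y]
      have h4 : S.E k * S.E p * S.E k + c • (S.E k * S.E q * S.E k) =
          S.E k * iv S p q c * S.E k := by
        unfold iv
        rw [mul_add, add_mul, mul_smul_comm, smul_mul_assoc]
      rw [h4, h3]
      rfl
    rw [h2, mul_add, add_mul, mul_one, S.sq, mul_smul_comm, smul_mul_assoc]
  rw [h1, conj_E', conj_E', conj_E']
  unfold nl iv
  congr 1
  have h5 : s * sk k p * sk k r * (c * sk k p * sk k q) = s * sk k r * c * sk k q := by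
    linear_combination (s * sk k r * c * sk k q) * sk_sq k p
  simp only [smul_add, add_mul, smul_mul_assoc, mul_smul_comm, smul_smul]
  congr 2
  · ring
  · rw [show s * sk k p * sk k r * (c * sk k p * sk k q) = s * sk k r * c * sk k q from h5]
    ring

/-- The group is stable under conjugation by `E_k`. -/
theorem GM_conj (k : Fin m) {M : Mt N ℂ} (h : M ∈ GM S) : S.E k * M * S.E k ∈ GM S := by
  obtain ⟨g, hg, rfl⟩ := h
  have h3 : ∀ x y : Mt N ℂ, (S.E k * x * S.E k) * (S.E k * y * S.E k) =
      S.E k * (x * y) * S.E k := by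
    intro x y
    calc (S.E k * x * S.E k) * (S.E k * y * S.E k) =
          S.E k * x * (S.E k * S.E k) * y * S.E k := by simp only [mul_assoc]
      _ = _ := by rw [S.sq, mul_one, mul_assoc (S.E k) x y]
  unfold spin at hg
  induction hg using Subgroup.closure_induction with
  | mem x hx =>
    obtain ⟨p, q, r, c, s, hpq, hp, hq, hc, hx⟩ := hx
    rw [hx, conj_root]
    refine GM_root S hpq hp hq ?_ _
    linear_combination (sk k q * sk k q * c * c) * sk_sq k p + c * c * sk_sq k q + hc
  | one =>
    change S.E k * (1 : Mt N ℂ) * S.E k ∈ GM S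
    rw [mul_one, S.sq]
    exact GM_one S
  | mul x y _ _ hx hy =>
    change S.E k * (x.1 * y.1) * S.E k ∈ GM S
    rw [← h3]
    exact GM_mul S hx hy
  | inv x _ hx =>
    refine GM_inv S hx ?_
    rw [h3]
    have h2 : x.1 * (x⁻¹).1 = 1 := by
      have h2 : (x * x⁻¹).1 = 1 := by rw [mul_inv_cancel]; rfl
      exact h2
    rw [h2, mul_one, S.sq]

theorem exists_third (hm : 3 ≤ m) (i j : Fin m) : ∃ r : Fin m, i ≠ r ∧ j ≠ r := by
  by_contra hh
  push Not at hh
  have h1 : (Finset.univ : Finset (Fin m)) ⊆ {i, j} := by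
    intro r _
    rw [Finset.mem_insert, Finset.mem_singleton]
    by_cases hr : i = r
    · exact Or.inl hr.symm
    · exact Or.inr (hh r hr).symm
  have h2 := Finset.card_le_card h1
  rw [Finset.card_univ, Fintype.card_fin] at h2
  have h3 := Finset.card_le_two (a := i) (b := j)
  omega

/-- The rotations are in the group. -/
theorem GM_rot (hm : 3 ≤ m) {i j : Fin m} (hij : i ≠ j) {a b : ℂ} (hab : a ^ 2 + b ^ 2 = 1) :
    a • (1 : Mt N ℂ) + b • (S.E i * S.E j) ∈ GM S := by
  obtain ⟨r, hi, hj⟩ := exists_third hm i j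
  have hI : Complex.I * Complex.I = -1 := Complex.I_mul_I
  have hI' : (-Complex.I) * (-Complex.I) = -1 := by rw [neg_mul_neg, hI]
  have hnn : ∀ c c' : ℂ, nl S i j r c * nl S i j r c' = -(iv S i j c * iv S i j c') := by
    intro c c'
    unfold nl
    calc iv S i j c * S.E r * (iv S i j c' * S.E r) =
          iv S i j c * (S.E r * iv S i j c') * S.E r := by simp only [mul_assoc]
      _ = iv S i j c * (-(iv S i j c' * S.E r)) * S.E r := by rw [iv_ac S hi hj, neg_neg]
      _ = -(iv S i j c * iv S i j c' * (S.E r * S.E r)) := by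
          simp only [mul_neg, neg_mul, mul_assoc]
      _ = _ := by rw [S.sq, mul_one]
  have hvv : ∀ c c' : ℂ, iv S i j c * iv S i j c' =
      (1 + c * c') • (1 : Mt N ℂ) + (c' - c) • (S.E i * S.E j) := by
    intro c c'
    unfold iv
    rw [add_mul, mul_add, mul_add, smul_mul_assoc, smul_mul_assoc, mul_smul_comm, mul_smul_comm,
      S.sq, S.sq, S.ac j i (Ne.symm hij)]
    rw [smul_neg, smul_smul, add_smul, sub_smul, one_smul]
    abel
  set X : Mt N ℂ := (1 / 2 : ℂ) • nl S i j r Complex.I with hX
  set Y : Mt N ℂ := (-1 / 2 : ℂ) • nl S i j r (-Complex.I) with hY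
  have hXX : X * X = 0 := by
    rw [hX, smul_mul_smul_comm, nl_sq S hij hi hj hI, smul_zero]
  have hYY : Y * Y = 0 := by
    rw [hY, smul_mul_smul_comm, nl_sq S hij hi hj hI', smul_zero]
  have hXY : X * Y = (1 / 2 : ℂ) • (1 : Mt N ℂ) + (-Complex.I / 2) • (S.E i * S.E j) := by
    rw [hX, hY, smul_mul_smul_comm, hnn, hvv]
    rw [smul_neg, ← neg_smul, smul_add, smul_smul, smul_smul]
    congr 2
    · linear_combination (-1 / 4 : ℂ) * hI
    · ring
  have hYX : Y * X = (1 / 2 : ℂ) • (1 : Mt N ℂ) + (Complex.I / 2) • (S.E i * S.E j) := by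
    rw [hX, hY, smul_mul_smul_comm, hnn, hvv]
    rw [smul_neg, ← neg_smul, smul_add, smul_smul, smul_smul]
    congr 2
    · linear_combination (-1 / 4 : ℂ) * hI
    · ring
  have hs : X * Y + Y * X = 1 := by
    rw [hXY, hYX]
    have : (1 / 2 : ℂ) • (1 : Mt N ℂ) + (-Complex.I / 2) • (S.E i * S.E j) +
        ((1 / 2 : ℂ) • (1 : Mt N ℂ) + (Complex.I / 2) • (S.E i * S.E j)) =
        (1 / 2 + 1 / 2 : ℂ) • (1 : Mt N ℂ) + (-Complex.I / 2 + Complex.I / 2) •
          (S.E i * S.E j) := by
      rw [add_smul, add_smul]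
      abel
    rw [this, show (-Complex.I / 2 + Complex.I / 2 : ℂ) = 0 by ring, zero_smul, add_zero,
      show (1 / 2 + 1 / 2 : ℂ) = 1 by norm_num, one_smul]
  have hll : (a + b * Complex.I) * (a - b * Complex.I) = 1 := by
    linear_combination hab - b ^ 2 * hI
  have hx : ∀ t : ℂ, 1 + t • X ∈ GM S := by
    intro t
    rw [hX, smul_smul]
    exact GM_root S hij hi hj hI _
  have hy : ∀ t : ℂ, 1 + t • Y ∈ GM S := by
    intro t
    rw [hY, smul_smul]
    exact GM_root S hij hi hj hI' _
  have h1 := sl2_torus hXX hYY hs hll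
  have h2 : (a + b * Complex.I) • (X * Y) + (a - b * Complex.I) • (Y * X) =
      a • (1 : Mt N ℂ) + b • (S.E i * S.E j) := by
    rw [hXY, hYX, smul_add, smul_add, smul_smul, smul_smul, smul_smul, smul_smul]
    have h3 : ∀ x y z w : ℂ, (x • (1 : Mt N ℂ) + y • (S.E i * S.E j)) +
        (z • (1 : Mt N ℂ) + w • (S.E i * S.E j)) =
        (x + z) • (1 : Mt N ℂ) + (y + w) • (S.E i * S.E j) := by
      intro x y z w
      rw [add_smul, add_smul]
      abel
    rw [h3]
    congr 2
    · ring
    · linear_combination (-b) * hI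
  rw [← h2, ← h1]
  exact GM_mul S (GM_mul S (GM_mul S (hx _) (hy _)) (hx _))
    (GM_mul S (GM_mul S (hx _) (hy _)) (hx _))

/-- The vector with coordinates `a`. -/
def ve (a : Fin m → ℂ) : Mt N ℂ := ∑ j, a j • S.E j

theorem ve_ve (a b : Fin m → ℂ) :
    ve S a * ve S b + ve S b * ve S a = (2 * ∑ j, a j * b j) • (1 : Mt N ℂ) := by
  unfold ve
  rw [Finset.sum_mul_sum, Finset.sum_mul_sum, Finset.sum_comm (f := fun i j => b i • S.E i *
    a j • S.E j), ← Finset.sum_add_distrib]
  have h1 : ∀ i, ∑ j, a i • S.E i * b j • S.E j + ∑ j, b j • S.E j * a i • S.E i =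
      (2 * (a i * b i)) • (1 : Mt N ℂ) := by
    intro i
    rw [← Finset.sum_add_distrib, Finset.sum_eq_single i]
    · rw [smul_mul_smul_comm, smul_mul_smul_comm, S.sq, mul_comm (b i), ← add_smul, two_mul]
    · intro j _ hj
      rw [smul_mul_smul_comm, smul_mul_smul_comm, mul_comm (b j), ← smul_add, S.ac j i hj,
        add_neg_cancel, smul_zero]
    · intro h
      exact absurd (Finset.mem_univ i) h
  rw [Finset.sum_congr rfl fun i _ => h1 i, ← Finset.sum_smul, Finset.mul_sum]

theorem ve_sq {a : Fin m → ℂ} (ha : ∑ j, a j ^ 2 = 1) : ve S a * ve S a = 1 := by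
  have h1 := ve_ve S a a
  rw [← two_smul ℂ, mul_smul] at h1
  have h2 : ∑ j, a j * a j = 1 := by
    rw [← ha]
    exact Finset.sum_congr rfl fun j _ => (sq (a j)).symm
  rw [h2, one_smul] at h1
  have h3 := congrArg (fun z => (1 / 2 : ℂ) • z) h1
  simp only [smul_smul] at h3
  norm_num at h3
  exact h3

theorem ve_refl (a : Fin m → ℂ) {b : Fin m → ℂ} (hb : ∑ j, b j ^ 2 = 1) :
    ve S b * ve S a * ve S b = ve S (fun l => 2 * (∑ i, b i * a i) * b l - a l) := by
  have h1 : ve S b * ve S a = (2 * ∑ j, b j * a j) • (1 : Mt N ℂ) - ve S a * ve S b := by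
    rw [← ve_ve]
    abel
  rw [h1, sub_mul, smul_mul_assoc, one_mul, mul_assoc, ve_sq S hb, mul_one]
  unfold ve
  rw [Finset.smul_sum, ← Finset.sum_sub_distrib]
  refine Finset.sum_congr rfl fun l _ => ?_
  rw [sub_smul, smul_smul]

theorem ve_v2 {i j : Fin m} (h : i ≠ j) (a b : ℂ) : ve S (v2 i j a b) = a • S.E i + b • S.E j := by
  unfold ve v2
  have h1 : ∀ l, (if l = i then a else if l = j then b else 0) • S.E l =
      (if l = i then a • S.E l else 0) + (if l = j then b • S.E l else 0) := by
    intro l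
    by_cases h1 : l = i
    · rw [if_pos h1, if_pos h1, if_neg (by rw [h1]; exact h), add_zero]
    · rw [if_neg h1, if_neg h1, zero_add, ite_smul, zero_smul]
  rw [Finset.sum_congr rfl fun l _ => h1 l, Finset.sum_add_distrib, Finset.sum_ite_eq',
    Finset.sum_ite_eq', if_pos (Finset.mem_univ i), if_pos (Finset.mem_univ j)]

/-- **The products of two unit vectors are in the group.** -/
theorem GM_unit (hm : 3 ≤ m) {a : Fin m → ℂ} (ha : ∑ j, a j ^ 2 = 1) (k : Fin m) :
    ve S a * S.E k ∈ GM S := by
  have hEE : ∀ x : Mt N ℂ, x * S.E k * S.E k = x := fun x => by rw [mul_assoc, S.sq, mul_one]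
  have key := unit_ind (m := m) (by omega)
    {a | ∑ j, a j ^ 2 = 1 ∧ ve S a * S.E k ∈ GM S} ?_ ?_ _ a le_rfl ha
  · exact key.2
  · intro i j hij a b hab
    refine ⟨?_, ?_⟩
    · have h1 := sum_v2 hij a b (v2 i j a b)
      have h2 : v2 i j a b i = a := if_pos rfl
      have h3 : v2 i j a b j = b := by
        unfold v2
        rw [if_neg (Ne.symm hij), if_pos rfl]
      rw [h2, h3] at h1
      rw [← hab, Finset.sum_congr rfl fun l _ => sq (v2 i j a b l), h1]
      ring
    · have h1 : ve S (v2 i j a b) * S.E k = (a • (1 : Mt N ℂ) + (-b) • (S.E i * S.E j)) *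
          (S.E i * S.E k) := by
        rw [ve_v2 S hij]
        have h2 : (a • (1 : Mt N ℂ) + (-b) • (S.E i * S.E j)) * S.E i = a • S.E i + b • S.E j := by
          rw [add_mul, smul_mul_assoc, one_mul, smul_mul_assoc, mul_assoc, S.ac j i (Ne.symm hij),
            mul_neg, ← mul_assoc, S.sq, one_mul, neg_smul, smul_neg, neg_neg]
        rw [← mul_assoc, h2]
      rw [h1]
      refine GM_mul S (GM_rot S hm hij (by rw [neg_sq]; exact hab)) ?_
      by_cases hik : i = k
      · rw [hik, S.sq]
        exact GM_one S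
      · have h2 := GM_rot S hm hik (a := 0) (b := 1) (by norm_num)
        rwa [zero_smul, zero_add, one_smul] at h2
  · rintro a ⟨ha, ha'⟩ b ⟨hb, hb'⟩
    have h1 := ve_refl S a hb
    have h2 : ve S (fun l => 2 * (∑ i, b i * a i) * b l - a l) * S.E k =
        (ve S b * S.E k) * (S.E k * (ve S a * S.E k) * S.E k) * (ve S b * S.E k) := by
      rw [← h1]
      calc ve S b * ve S a * ve S b * S.E k =
            ve S b * (S.E k * S.E k) * ve S a * (S.E k * S.E k) * ve S b * S.E k := by
            rw [S.sq, mul_one, mul_one]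
        _ = _ := by simp only [mul_assoc]
    refine ⟨?_, ?_⟩
    · have h3 : ∀ l, (2 * (∑ i, b i * a i) * b l - a l) ^ 2 =
          4 * (∑ i, b i * a i) ^ 2 * b l ^ 2 - 4 * (∑ i, b i * a i) * (b l * a l) + a l ^ 2 := by
        intro l
        ring
      rw [Finset.sum_congr rfl fun l _ => h3 l, Finset.sum_add_distrib, Finset.sum_sub_distrib,
        ← Finset.mul_sum, ← Finset.mul_sum, ha, hb]
      ring
    · rw [h2]
      exact GM_mul S (GM_mul S hb' (GM_conj S k ha')) hb'

/-- The group generated by the products of two unit vectors. -/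
theorem closure_unit (hm : 3 ≤ m) : Subgroup.closure
    {g : SpecialLinearGroup (Fin N) ℂ | ∃ a b : Fin m → ℂ, ∑ j, a j ^ 2 = 1 ∧ ∑ j, b j ^ 2 = 1 ∧
      g.1 = ve S a * ve S b} = spin S := by
  apply le_antisymm
  · rw [Subgroup.closure_le]
    rintro g ⟨a, b, ha, hb, hg⟩
    let k : Fin m := ⟨0, by omega⟩
    have h1 : g.1 ∈ GM S := by
      have h2 : S.E k * ve S b ∈ GM S := by
        refine GM_inv S (GM_unit S hm hb k) ?_
        calc ve S b * S.E k * (S.E k * ve S b) = ve S b * (S.E k * S.E k) * ve S b := by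
              simp only [mul_assoc]
          _ = 1 := by rw [S.sq, mul_one, ve_sq S hb]
      have h3 := GM_mul S (GM_unit S hm ha k) h2
      have h4 : ve S a * S.E k * (S.E k * ve S b) = g.1 := by
        calc ve S a * S.E k * (S.E k * ve S b) = ve S a * (S.E k * S.E k) * ve S b := by
              simp only [mul_assoc]
          _ = g.1 := by rw [S.sq, mul_one, hg]
      rwa [h4] at h3
    obtain ⟨g', hg', he⟩ := h1
    have : g' = g := Subtype.ext he
    rw [← this]
    exact hg'
  · unfold spin
    rw [Subgroup.closure_le]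
    rintro g ⟨p, q, r, c, s, hpq, hp, hq, hc, hg⟩
    apply Subgroup.subset_closure
    have hE : ve S (v2 p q s (s * c)) = s • iv S p q c := by
      rw [ve_v2 S hpq]
      unfold iv
      rw [smul_add, smul_smul]
    have h0 : ∀ l, v2 r p (1 : ℂ) 0 l * v2 r p (1 : ℂ) 0 l = v2 r p (1 : ℂ) 0 l := by
      intro l
      unfold v2
      by_cases hl : l = r
      · rw [if_pos hl, one_mul]
      · rw [if_neg hl, ite_self, mul_zero]
    have hr : ve S (v2 r p 1 0) = S.E r := by
      rw [ve_v2 S (Ne.symm hp), one_smul, zero_smul, add_zero]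
    refine ⟨fun l => v2 r p 1 0 l + v2 p q s (s * c) l, v2 r p 1 0, ?_, ?_, ?_⟩
    · have h1 : ∀ l, (v2 r p (1 : ℂ) 0 l + v2 p q s (s * c) l) ^ 2 =
          v2 r p (1 : ℂ) 0 l * v2 r p 1 0 l + 2 * (v2 r p (1 : ℂ) 0 l * v2 p q s (s * c) l) +
            v2 p q s (s * c) l * v2 p q s (s * c) l := by
        intro l
        ring
      have e1 : ∀ x y : ℂ, v2 p q x y p = x := fun x y => if_pos rfl
      have e2 : ∀ x y : ℂ, v2 p q x y q = y := fun x y => by
        unfold v2
        rw [if_neg (Ne.symm hpq), if_pos rfl]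
      have e3 : ∀ x y : ℂ, v2 p q x y r = 0 := fun x y => by
        unfold v2
        rw [if_neg (Ne.symm hp), if_neg (Ne.symm hq)]
      have e4 : ∀ x y : ℂ, v2 r p x y r = x := fun x y => if_pos rfl
      have e5 : ∀ x y : ℂ, v2 r p x y p = y := fun x y => by
        unfold v2
        rw [if_neg hp, if_pos rfl]
      rw [Finset.sum_congr rfl fun l _ => h1 l, Finset.sum_add_distrib, Finset.sum_add_distrib,
        ← Finset.mul_sum, sum_v2 (Ne.symm hp), sum_v2 (Ne.symm hp), sum_v2 hpq, e1, e2, e3, e4, e5]
      linear_combination s * s * hc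
    · have e4 : ∀ x y : ℂ, v2 r p x y r = x := fun x y => if_pos rfl
      have e5 : ∀ x y : ℂ, v2 r p x y p = y := fun x y => by
        unfold v2
        rw [if_neg hp, if_pos rfl]
      rw [Finset.sum_congr rfl fun l _ => sq (v2 r p (1 : ℂ) 0 l), sum_v2 (Ne.symm hp), e4, e5]
      ring
    · have h1 : ve S (fun l => v2 r p 1 0 l + v2 p q s (s * c) l) = S.E r + s • iv S p q c := by
        rw [← hE, ← hr]
        unfold ve
        rw [← Finset.sum_add_distrib]
        exact Finset.sum_congr rfl fun l _ => add_smul _ _ _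
      rw [h1, hr, hg, add_mul, S.sq, smul_mul_assoc]
      rfl

end Grp

section Spn

theorem gam_E (n : ℕ) : (gam n).E = gma n := by
  induction n with
  | zero => rfl
  | succ n ih =>
    change stepE (gam n) = gma (n + 1)
    unfold stepE
    rw [ih]
    rfl

/-- **The group generated by the products of two unit vectors is the group of the library.** -/
theorem spinG_eq {n : ℕ} (hn : 0 < n) : SpinG n = Spn n := by
  have h1 := closure_unit (gam n) (by omega)
  have h2 : ∀ a, ve (gam n) a = vg n a := by
    intro a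
    unfold ve vg
    rw [gam_E]
  simp only [h2] at h1
  exact h1

end Spn

end

end Vale.Agent.P286.H987
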