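import Vale.Agent.P286.H987.E0
import Vale.Agent.P286.H987.SpEq

/-!
# The comparison theorem for the spin group of any system of gamma matrices
-/

namespace Vale.Agent.P286.H987

open Matrix Vale.Agent.P286.H341 Vale.Agent.P286.H847 Vale.Agent.P286.H374 Vale.Agent.P286.Gen

noncomputable section

/-- The odd spin groups, for any irreducible system of gamma matrices. -/
def E0D.spinS {n N : ℕ} [NeZero N] (S : CSys (2 * n + 1) N) (hn : 0 < n) :
    E0D (spin S) (Dat.so n) n where
  P := FRep.spinS S hn
  prime := prime_spin S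
  dag _ hX := isLi_conjTranspose S (by omega) hX
  cls := cls_so n

/-- (E0) for the odd spin group of any system of gamma matrices. -/
theorem e0_spinS {n N : ℕ} [NeZero N] (S : CSys (2 * n + 1) N) (hn : 0 < n) :
    GD.Qis ((FRep.spinS S hn).R.evU n) := e0 (E0D.spinS S hn)

/-- The spin group is the group generated by the products of two unit vectors. -/
theorem spin_eq_closure {n N : ℕ} [NeZero N] (S : CSys (2 * n + 1) N) (hn : 0 < n) :
    spin S = Subgroup.closure {g : SpecialLinearGroup (Fin N) ℂ |
      ∃ v w : Fin (2 * n + 1) → ℂ, ∑ j, v j * v j = 1 ∧ ∑ j, w j * w j = 1 ∧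
        g.1 = (∑ j, v j • S.E j) * ∑ j, w j • S.E j} := by
  rw [← closure_unit S (by omega)]
  congr 1
  ext g
  simp only [sq, Set.mem_ofPred_eq, ve]

end

end Vale.Agent.P286.H987
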