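import Vale.Agent.P286.Gen.GpD

/-!
# The spin groups `Spin_{2n+1}(ℂ)`

The gamma matrices `γ_0, …, γ_{2n}` of size `2 ^ n` satisfy `γ_j γ_k + γ_k γ_j = 2 δ_jk`, and the
products of an even number of them span a simple algebra isomorphic to the even Clifford algebra of
the quadratic form `∑ x_j²`. The spin group is the group generated by the products `u v` of two unit
vectors `u`, `v`.
-/

namespace Vale.Agent.P286.H987

open Matrix Vale.Agent.P286.Gen

noncomputable section

/-- The dimension `2 ^ n` of the spin representation. -/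
def dN : ℕ → ℕ
  | 0 => 1
  | n + 1 => dN n + dN n

/-- The matrix with the blocks `a`, `b`, `c`, `d`. -/
def blk {N : ℕ} (a b c d : Mt N ℂ) : Mt (N + N) ℂ :=
  (Matrix.fromBlocks a b c d).submatrix finSumFinEquiv.symm finSumFinEquiv.symm

/-- The gamma matrices: one matrix of size one, and for two more matrices of double size
`(0 1; 1 0)`, `(0 -i; i 0)` and the `(γ 0; 0 -γ)`. -/
def gma : (n : ℕ) → Fin (2 * n + 1) → Mt (dN n) ℂ
  | 0 => fun _ => 1
  | n + 1 => Fin.cons (blk 0 1 1 0)
      (Fin.cons (blk 0 (-Complex.I • (1 : Mt (dN n) ℂ)) (Complex.I • (1 : Mt (dN n) ℂ)) 0)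
        fun j => blk (gma n j) 0 0 (-gma n j))

/-- The vector with coordinates `a`, in the Clifford algebra. -/
def vg (n : ℕ) (a : Fin (2 * n + 1) → ℂ) : Mt (dN n) ℂ := ∑ j, a j • gma n j

/-- The group `Spin_{2n+1}(ℂ)`, generated by the products of two vectors of length one. -/
def SpinG (n : ℕ) : Gps (dN n) := Subgroup.closure
  {g | ∃ a b : Fin (2 * n + 1) → ℂ, ∑ j, a j ^ 2 = 1 ∧ ∑ j, b j ^ 2 = 1 ∧ g.1 = vg n a * vg n b}

end

end Vale.Agent.P286.H987
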