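import Vale.Agent.P286.H987.KillS
import Vale.Agent.P286.H987.SpDef

/-!
# The gamma matrices and the groups `Spin_{2n+1}`
-/

namespace Vale.Agent.P286.H987

open Matrix Polynomial Vale.Agent.P286.Gen

noncomputable section

set_option linter.unusedSectionVars false

section Blocks

variable {N : ℕ}

theorem blk_mul (a b c d a' b' c' d' : Mt N ℂ) : blk a b c d * blk a' b' c' d' =
    blk (a * a' + b * c') (a * b' + b * d') (c * a' + d * c') (c * b' + d * d') := by
  unfold blk
  rw [Matrix.submatrix_mul_equiv, Matrix.fromBlocks_multiply]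

theorem blk_neg (a b c d : Mt N ℂ) : -blk a b c d = blk (-a) (-b) (-c) (-d) := by
  unfold blk
  rw [← Matrix.fromBlocks_neg]
  rfl

theorem blk_smul (t : ℂ) (a b c d : Mt N ℂ) :
    t • blk a b c d = blk (t • a) (t • b) (t • c) (t • d) := by
  unfold blk
  rw [← Matrix.fromBlocks_smul]
  rfl

theorem blk_one : blk (1 : Mt N ℂ) 0 0 1 = 1 := by
  unfold blk
  rw [Matrix.fromBlocks_one, Matrix.submatrix_one_equiv]

theorem blk_conjTranspose (a b c d : Mt N ℂ) : (blk a b c d)ᴴ = blk aᴴ cᴴ bᴴ dᴴ := by
  unfold blk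
  rw [Matrix.conjTranspose_submatrix, Matrix.fromBlocks_conjTranspose]

theorem exists_blk (X : Mt (N + N) ℂ) : ∃ a b c d, X = blk a b c d := by
  refine ⟨(X.submatrix finSumFinEquiv finSumFinEquiv).toBlocks₁₁,
    (X.submatrix finSumFinEquiv finSumFinEquiv).toBlocks₁₂,
    (X.submatrix finSumFinEquiv finSumFinEquiv).toBlocks₂₁,
    (X.submatrix finSumFinEquiv finSumFinEquiv).toBlocks₂₂, ?_⟩
  unfold blk
  rw [Matrix.fromBlocks_toBlocks, Matrix.submatrix_submatrix]
  simp

theorem blk_inj {a b c d a' b' c' d' : Mt N ℂ} (h : blk a b c d = blk a' b' c' d') :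
    a = a' ∧ b = b' ∧ c = c' ∧ d = d' := by
  have h1 := congrArg (fun X : Mt (N + N) ℂ => X.submatrix finSumFinEquiv finSumFinEquiv) h
  simp only [blk, Matrix.submatrix_submatrix, Equiv.symm_comp_self, Matrix.submatrix_id_id] at h1
  rwa [Matrix.fromBlocks_inj] at h1

end Blocks

/-- The gamma matrix for a vector of length one. -/
def base : CSys 1 1 where
  E _ := 1
  sq _ := one_mul 1
  ac j k h := absurd (Subsingleton.elim j k) h
  herm _ := Matrix.conjTranspose_one
  irr X _ := ⟨X 0 0, by
    ext i j
    fin_cases i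
    fin_cases j
    simp⟩

variable {m N : ℕ}

/-- The gamma matrices for two more dimensions. -/
def stepE (S : CSys m N) : Fin (m + 2) → Mt (N + N) ℂ :=
  Fin.cons (blk 0 1 1 0) (Fin.cons (blk 0 (-Complex.I • (1 : Mt N ℂ)) (Complex.I • (1 : Mt N ℂ)) 0)
    fun j => blk (S.E j) 0 0 (-S.E j))

theorem stepE_zero (S : CSys m N) : stepE S 0 = blk 0 1 1 0 := rfl

theorem stepE_one (S : CSys m N) : stepE S 1 =
    blk 0 (-Complex.I • (1 : Mt N ℂ)) (Complex.I • (1 : Mt N ℂ)) 0 := rfl

theorem stepE_succ (S : CSys m N) (j : Fin m) : stepE S j.succ.succ = blk (S.E j) 0 0 (-S.E j) :=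
  rfl

theorem stepE_cases {P : Fin (m + 2) → Prop} (h0 : P 0) (h1 : P 1)
    (h2 : ∀ j : Fin m, P j.succ.succ) (k : Fin (m + 2)) : P k := by
  refine Fin.cases h0 (fun k => ?_) k
  refine Fin.cases h1 (fun k => ?_) k
  exact h2 k

/-- The Clifford system for two more dimensions. -/
def step (S : CSys m N) : CSys (m + 2) (N + N) where
  E := stepE S
  sq := by
    apply stepE_cases
    · rw [stepE_zero, blk_mul]
      simp [blk_one]
    · rw [stepE_one, blk_mul]
      simp [blk_one, smul_smul]
    · intro j
      rw [stepE_succ, blk_mul]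
      simp [S.sq, blk_one]
  ac := by
    apply stepE_cases
    · apply stepE_cases
      · intro h
        exact absurd rfl h
      · intro _
        rw [stepE_zero, stepE_one, blk_mul, blk_mul, blk_neg]
        simp
      · intro j _
        rw [stepE_zero, stepE_succ, blk_mul, blk_mul, blk_neg]
        simp
    · apply stepE_cases
      · intro _
        rw [stepE_zero, stepE_one, blk_mul, blk_mul, blk_neg]
        simp
      · intro h
        exact absurd rfl h
      · intro j _
        rw [stepE_one, stepE_succ, blk_mul, blk_mul, blk_neg]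
        simp
    · intro i
      apply stepE_cases
      · intro _
        rw [stepE_zero, stepE_succ, blk_mul, blk_mul, blk_neg]
        simp
      · intro _
        rw [stepE_one, stepE_succ, blk_mul, blk_mul, blk_neg]
        simp
      · intro j h
        rw [stepE_succ, stepE_succ, blk_mul, blk_mul, blk_neg]
        have h1 : i ≠ j := fun e => h (by rw [e])
        rw [S.ac i j h1]
        simp [S.ac i j h1]
  herm := by
    apply stepE_cases
    · rw [stepE_zero, blk_conjTranspose]
      simp
    · rw [stepE_one, blk_conjTranspose]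
      simp
    · intro j
      rw [stepE_succ, blk_conjTranspose]
      simp [S.herm]
  irr X hX := by
    obtain ⟨a, b, c, d, rfl⟩ := exists_blk X
    have h0 := hX 0
    have h1 := hX 1
    rw [stepE_zero, blk_mul, blk_mul] at h0
    rw [stepE_one, blk_mul, blk_mul] at h1
    obtain ⟨e1, e2, e3, e4⟩ := blk_inj h0
    obtain ⟨f1, f2, f3, f4⟩ := blk_inj h1
    simp only [mul_zero, mul_one, zero_add, add_zero, zero_mul, one_mul] at e1 e2
    simp only [mul_zero, zero_add, add_zero, zero_mul, mul_smul_comm, mul_one, smul_mul_assoc,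
      one_mul] at f1
    have g1 : c = 0 := by
      rw [e1] at f1
      have h2 : (Complex.I + Complex.I) • c = 0 := by
        rw [add_smul]
        nth_rewrite 1 [f1]
        rw [neg_smul, neg_add_cancel]
      have h3 : Complex.I + Complex.I ≠ 0 := by
        rw [← two_mul]
        exact mul_ne_zero two_ne_zero Complex.I_ne_zero
      exact (smul_eq_zero.1 h2).resolve_left h3
    subst g1
    subst e1
    subst e2
    have h2 : ∀ j, a * S.E j = S.E j * a := by
      intro j
      have h3 := hX j.succ.succ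
      rw [stepE_succ, blk_mul, blk_mul] at h3
      have h4 := (blk_inj h3).1
      simpa using h4
    obtain ⟨c, hc⟩ := S.irr a h2
    refine ⟨c, ?_⟩
    rw [hc, ← blk_one, blk_smul, smul_zero]

theorem dN_eq (n : ℕ) : dN n = 2 ^ n := by
  induction n with
  | zero => rfl
  | succ n ih => rw [dN, ih, pow_succ, mul_two]

instance (n : ℕ) : NeZero (dN n) := ⟨by rw [dN_eq]; exact pow_ne_zero _ two_ne_zero⟩

/-- The `2n+1` gamma matrices of size `2^n`. -/
def gam : (n : ℕ) → CSys (2 * n + 1) (dN n)
  | 0 => base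
  | n + 1 => step (gam n)

/-- The group `Spin_{2n+1}(ℂ)` in the spin representation of dimension `2 ^ n`. -/
def Spn (n : ℕ) : Gps (dN n) := spin (gam n)

theorem prime_Spn (n : ℕ) : (vanI (Spn n)).IsPrime := prime_spin _

theorem kilDet_Spn {n : ℕ} (hn : 0 < n) : KilDet (Spn n) := kilDet_spin _ (by omega)

theorem bv2_conjTranspose (S : CSys m N) (k l : Fin m) : (bv2 S k l)ᴴ = -bv2 S k l := by
  unfold bv2
  by_cases h : k = l
  · rw [if_pos h, Matrix.conjTranspose_zero, neg_zero]
  · rw [if_neg h, Matrix.conjTranspose_mul, S.herm, S.herm, S.ac k l h, neg_neg]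

/-- The spin Lie algebra is closed under the conjugate transpose. -/
theorem isLi_conjTranspose [NeZero N] (S : CSys m N) (hm : 3 ≤ m) {X : Mt N ℂ}
    (hX : IsLi (spin S) X) : IsLi (spin S) Xᴴ := by
  rw [← ofA_drho S hX]
  unfold ofA
  rw [Matrix.conjTranspose_smul, Matrix.conjTranspose_sum]
  apply IsLi.smul
  refine IsLi.sum _ fun k _ => ?_
  rw [Matrix.conjTranspose_sum]
  refine IsLi.sum _ fun l _ => ?_
  rw [Matrix.conjTranspose_smul, cm_self, bv2_conjTranspose]
  exact ((isLi_bv2 S hm k l).neg).smul _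

end

end Vale.Agent.P286.H987
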