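import Vale.Agent.P286.H987.LieS

/-!
# The Killing form of the spin Lie algebra
-/

namespace Vale.Agent.P286.H987

open Matrix Polynomial Vale.Agent.P286.Gen

noncomputable section

set_option linter.unusedSectionVars false

attribute [local instance 100] LieRing.ofAssociativeRing LieAlgebra.ofAssociativeAlgebra

/-- The trace of an endomorphism, from a frame. -/
theorem trace_frame {V ι : Type*} [AddCommGroup V] [Module ℂ V] [FiniteDimensional ℂ V]
    [Fintype ι] (b : ι → V) (φ : ι → Module.Dual ℂ V) (h : ∀ z, ∑ i, φ i z • b i = z)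
    (T : V →ₗ[ℂ] V) : LinearMap.trace ℂ V T = ∑ i, φ i (T (b i)) := by
  have h1 : T = ∑ i, dualTensorHom ℂ V V (φ i ⊗ₜ[ℂ] T (b i)) := by
    ext z
    rw [LinearMap.sum_apply]
    conv_lhs => rw [← h z]
    rw [map_sum]
    refine Finset.sum_congr rfl fun i _ => ?_
    rw [map_smul, dualTensorHom_apply]
  conv_lhs => rw [h1]
  rw [map_sum]
  refine Finset.sum_congr rfl fun i _ => ?_
  rw [LinearMap.trace_eq_contract_apply, contractLeft_apply]

variable {m N : ℕ} (S : CSys m N)

/-- `∑ E_r Y E_r` -/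
def dop (Y : Mt N ℂ) : Mt N ℂ := ∑ r, S.E r * Y * S.E r

theorem dop_add (X Y : Mt N ℂ) : dop S (X + Y) = dop S X + dop S Y := by
  unfold dop
  rw [← Finset.sum_add_distrib]
  exact Finset.sum_congr rfl fun r _ => by rw [mul_add, add_mul]

theorem dop_smul (c : ℂ) (X : Mt N ℂ) : dop S (c • X) = c • dop S X := by
  unfold dop
  rw [Finset.smul_sum]
  exact Finset.sum_congr rfl fun r _ => by rw [mul_smul_comm, smul_mul_assoc]

theorem dop_zero : dop S 0 = 0 := by
  unfold dop
  simp

theorem dop_sum {ι : Type*} (s : Finset ι) (x : ι → Mt N ℂ) :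
    dop S (∑ i ∈ s, x i) = ∑ i ∈ s, dop S (x i) := by
  classical
  induction s using Finset.induction_on with
  | empty => rw [Finset.sum_empty, Finset.sum_empty, dop_zero]
  | insert a s ha ih => rw [Finset.sum_insert ha, Finset.sum_insert ha, dop_add, ih]

theorem dop_bv2 (k l : Fin m) : dop S (bv2 S k l) = ((m : ℂ) - 4) • bv2 S k l := by
  unfold bv2
  by_cases h : k = l
  · rw [if_pos h, dop_zero, smul_zero]
  · rw [if_neg h]
    unfold dop
    have h1 : ∀ r : Fin m, S.E r * (S.E k * S.E l) * S.E r =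
        S.E k * S.E l + ((if l = r then (2 : ℂ) • (S.E l * S.E k) else 0) -
          (if k = r then (2 : ℂ) • (S.E k * S.E l) else 0)) := by
      intro r
      have e1 : S.E l * S.E r = (2 * (if l = r then (1 : ℂ) else 0)) • (1 : Mt N ℂ) -
          S.E r * S.E l := by rw [← S.rel l r]; abel
      have e2 : S.E r * S.E k * S.E r = (2 * (if k = r then (1 : ℂ) else 0)) • S.E r - S.E k := by
        have e3 : S.E r * S.E k = (2 * (if k = r then (1 : ℂ) else 0)) • (1 : Mt N ℂ) -
          S.E k * S.E r := by rw [← S.rel k r]; abel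
        rw [e3, sub_mul, smul_mul_assoc, one_mul, mul_assoc, S.sq, mul_one]
      calc S.E r * (S.E k * S.E l) * S.E r = (S.E r * S.E k) * (S.E l * S.E r) := by
            simp only [mul_assoc]
        _ = (2 * (if l = r then (1 : ℂ) else 0)) • (S.E r * S.E k) -
            (S.E r * S.E k * S.E r) * S.E l := by
            rw [e1, mul_sub, mul_smul_comm, mul_one]
            simp only [mul_assoc]
        _ = _ := by
            rw [e2, sub_mul, smul_mul_assoc]
            by_cases h2 : l = r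
            · subst h2
              rw [if_pos rfl, if_neg h, if_pos rfl, if_neg h, mul_one, mul_zero, zero_smul]
              abel
            · by_cases h3 : k = r
              · subst h3
                rw [if_neg h2, if_pos rfl, if_neg h2, if_pos rfl, mul_one, mul_zero, zero_smul]
                abel
              · simp only [if_neg h2, if_neg h3, mul_zero, zero_smul]
                abel
    rw [Finset.sum_congr rfl fun r _ => h1 r, Finset.sum_add_distrib, Finset.sum_sub_distrib,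
      Finset.sum_const, Finset.card_univ, Fintype.card_fin, Finset.sum_ite_eq Finset.univ l,
      if_pos (Finset.mem_univ l), Finset.sum_ite_eq Finset.univ k, if_pos (Finset.mem_univ k),
      S.ac l k (Ne.symm h), sub_smul, Nat.cast_smul_eq_nsmul, smul_neg]
    have : (4 : ℂ) • (S.E k * S.E l) = (2 : ℂ) • (S.E k * S.E l) + (2 : ℂ) • (S.E k * S.E l) := by
      rw [← add_smul]
      norm_num
    rw [this]
    abel

variable [NeZero N]

theorem dop_isLi {Y : Mt N ℂ} (hY : IsLi (spin S) Y) : dop S Y = ((m : ℂ) - 4) • Y := by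
  rw [← ofA_drho S hY]
  unfold ofA
  rw [dop_smul, dop_sum, smul_comm]
  congr 1
  rw [Finset.smul_sum]
  refine Finset.sum_congr rfl fun k _ => ?_
  rw [dop_sum, Finset.smul_sum]
  refine Finset.sum_congr rfl fun l _ => ?_
  rw [dop_smul, cm_self, dop_bv2, smul_comm]

/-- The Casimir element acts by a scalar. -/
theorem cas_eq {Y : Mt N ℂ} (hY : IsLi (spin S) Y) :
    ∑ k, ∑ l, (bv2 S k l * bv2 S k l * Y + Y * (bv2 S k l * bv2 S k l) -
      (2 : ℂ) • (bv2 S k l * Y * bv2 S k l)) = (32 - 16 * (m : ℂ)) • Y := by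
  have h1 : ∀ k l : Fin m, bv2 S k l * bv2 S k l * Y + Y * (bv2 S k l * bv2 S k l) -
      (2 : ℂ) • (bv2 S k l * Y * bv2 S k l) =
      (2 : ℂ) • (S.E k * (S.E l * Y * S.E l) * S.E k) - (2 : ℂ) • Y := by
    intro k l
    unfold bv2
    by_cases h : k = l
    · subst h
      rw [if_pos rfl]
      have : S.E k * (S.E k * Y * S.E k) * S.E k = Y := by
        calc S.E k * (S.E k * Y * S.E k) * S.E k = (S.E k * S.E k) * Y * (S.E k * S.E k) := by
              simp only [mul_assoc]
          _ = Y := by rw [S.sq, one_mul, mul_one]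
      rw [this]
      simp
    · rw [if_neg h]
      have e1 : S.E k * S.E l * (S.E k * S.E l) = -1 := by
        calc S.E k * S.E l * (S.E k * S.E l) = S.E k * (S.E l * S.E k) * S.E l := by
              simp only [mul_assoc]
          _ = S.E k * (-(S.E k * S.E l)) * S.E l := by rw [S.ac l k (Ne.symm h)]
          _ = -((S.E k * S.E k) * (S.E l * S.E l)) := by noncomm_ring
          _ = -1 := by rw [S.sq, S.sq, one_mul]
      have e2 : S.E k * S.E l * Y * (S.E k * S.E l) = -(S.E k * (S.E l * Y * S.E l) * S.E k) := by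
        rw [S.ac k l h]
        nth_rewrite 1 [show S.E l * S.E k = -(S.E k * S.E l) by rw [S.ac k l h, neg_neg]]
        noncomm_ring
      rw [e1, e2, smul_neg, two_smul, two_smul]
      noncomm_ring
  have h2 : ∑ k, ∑ l, (S.E k * (S.E l * Y * S.E l) * S.E k) =
      (((m : ℂ) - 4) * ((m : ℂ) - 4)) • Y := by
    have h3 : ∑ k, ∑ l, (S.E k * (S.E l * Y * S.E l) * S.E k) = dop S (dop S Y) := by
      unfold dop
      refine Finset.sum_congr rfl fun k _ => ?_
      rw [Finset.mul_sum, Finset.sum_mul]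
    rw [h3, dop_isLi S hY, dop_smul, dop_isLi S hY, smul_smul]
  have h4 : ∑ k, ∑ l, (bv2 S k l * bv2 S k l * Y + Y * (bv2 S k l * bv2 S k l) -
      (2 : ℂ) • (bv2 S k l * Y * bv2 S k l)) =
      ∑ k : Fin m, ∑ l : Fin m, ((2 : ℂ) • (S.E k * (S.E l * Y * S.E l) * S.E k) - (2 : ℂ) • Y) :=
    Finset.sum_congr rfl fun k _ => Finset.sum_congr rfl fun l _ => h1 k l
  rw [h4]
  simp only [Finset.sum_sub_distrib, ← Finset.smul_sum]
  rw [h2]
  simp only [Finset.sum_const, Finset.card_univ, Fintype.card_fin, smul_smul,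
    ← Nat.cast_smul_eq_nsmul ℂ, ← sub_smul]
  congr 1
  ring

theorem drho_trace (W : Mt N ℂ) (k l : Fin m) :
    drho S W k l = -(2 * (N : ℂ)⁻¹) * trace (bv2 S k l * W) := by
  rw [drho_apply, cm_self, cm_self]
  change (N : ℂ)⁻¹ * _ = _
  have h1 : trace (S.E k * (W * S.E l - S.E l * W)) =
      trace (S.E l * S.E k * W) - trace (S.E k * S.E l * W) := by
    rw [mul_sub, trace_sub, ← mul_assoc, trace_mul_comm, ← mul_assoc, ← mul_assoc]
  rw [h1]
  unfold bv2
  by_cases h : k = l
  · subst h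
    rw [if_pos rfl, zero_mul, trace_zero, sub_self, mul_zero, mul_zero]
  · rw [if_neg h, S.ac l k (Ne.symm h), neg_mul, trace_neg]
    ring

/-- The Killing form is a multiple of the trace form. -/
theorem killing_eq (hm : 3 ≤ m) (X Y : lieAlg (spin S)) :
    killingForm ℂ (lieAlg (spin S)) X Y =
      (8 * (m : ℂ) - 16) * (N : ℂ)⁻¹ * trace ((X : Mt N ℂ) * (Y : Mt N ℂ)) := by
  have hb : ∀ p : Fin m × Fin m, bv2 S p.1 p.2 ∈ lieAlg (spin S) := fun p =>
    (mem_lieAlg _).2 (isLi_bv2 S hm p.1 p.2)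
  let b : Fin m × Fin m → lieAlg (spin S) := fun p => ⟨bv2 S p.1 p.2, hb p⟩
  let φ : Fin m × Fin m → Module.Dual ℂ (lieAlg (spin S)) := fun p =>
    { toFun := fun Z => (4 : ℂ)⁻¹ * drho S (Z : Mt N ℂ) p.1 p.2
      map_add' := fun Z Z' => by
        change (4 : ℂ)⁻¹ * drho S ((Z : Mt N ℂ) + (Z' : Mt N ℂ)) p.1 p.2 = _
        rw [drho_add, Matrix.add_apply, mul_add]
      map_smul' := fun c Z => by
        change (4 : ℂ)⁻¹ * drho S (c • (Z : Mt N ℂ)) p.1 p.2 = _
        rw [drho_smul, Matrix.smul_apply, smul_eq_mul, RingHom.id_apply, smul_eq_mul]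
        ring }
  have hframe : ∀ z : lieAlg (spin S), ∑ p, φ p z • b p = z := by
    intro z
    apply Subtype.ext
    have h1 := ofA_drho S ((mem_lieAlg _).1 z.2)
    conv_rhs => rw [← h1]
    unfold ofA
    rw [Fintype.sum_prod_type, Finset.smul_sum]
    have h2 : ((∑ k, ∑ l, φ (k, l) z • b (k, l) : lieAlg (spin S)) : Mt N ℂ) =
        ∑ k, ∑ l, ((4 : ℂ)⁻¹ * drho S (z : Mt N ℂ) k l) • bv2 S k l := by
      rw [AddSubmonoidClass.coe_finset_sum]
      refine Finset.sum_congr rfl fun k _ => ?_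
      rw [AddSubmonoidClass.coe_finset_sum]
      exact Finset.sum_congr rfl fun l _ => rfl
    rw [h2]
    refine Finset.sum_congr rfl fun k _ => ?_
    rw [Finset.smul_sum]
    refine Finset.sum_congr rfl fun l _ => ?_
    rw [cm_self, ← smul_smul]
    rfl
  rw [killingForm_apply_apply, trace_frame b φ hframe]
  have h3 : ∀ p : Fin m × Fin m,
      φ p ((LieAlgebra.ad ℂ (lieAlg (spin S)) X ∘ₗ LieAlgebra.ad ℂ (lieAlg (spin S)) Y) (b p)) =
      -((2 * (N : ℂ))⁻¹) * trace ((X : Mt N ℂ) *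
        (bv2 S p.1 p.2 * bv2 S p.1 p.2 * (Y : Mt N ℂ) + (Y : Mt N ℂ) *
          (bv2 S p.1 p.2 * bv2 S p.1 p.2) -
          (2 : ℂ) • (bv2 S p.1 p.2 * (Y : Mt N ℂ) * bv2 S p.1 p.2))) := by
    intro p
    change (4 : ℂ)⁻¹ * drho S (((⁅X, ⁅Y, b p⁆⁆ : lieAlg (spin S)) : Mt N ℂ)) p.1 p.2 = _
    rw [drho_trace]
    have h4 : ((⁅X, ⁅Y, b p⁆⁆ : lieAlg (spin S)) : Mt N ℂ) =
        (X : Mt N ℂ) * ((Y : Mt N ℂ) * bv2 S p.1 p.2 - bv2 S p.1 p.2 * (Y : Mt N ℂ)) -
        ((Y : Mt N ℂ) * bv2 S p.1 p.2 - bv2 S p.1 p.2 * (Y : Mt N ℂ)) * (X : Mt N ℂ) := rfl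
    rw [h4]
    generalize bv2 S p.1 p.2 = c
    generalize (X : Mt N ℂ) = x
    generalize (Y : Mt N ℂ) = y
    have h5 : trace (c * (x * (y * c - c * y) - (y * c - c * y) * x)) =
        trace (x * (c * c * y + y * (c * c) - (2 : ℂ) • (c * y * c))) := by
      have h6 : c * (x * (y * c - c * y) - (y * c - c * y) * x) =
          c * (x * (y * c - c * y)) - c * (y * c - c * y) * x := by noncomm_ring
      have h7 : x * (c * c * y + y * (c * c) - (2 : ℂ) • (c * y * c)) =
          x * (y * c - c * y) * c - x * (c * (y * c - c * y)) := by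
        rw [two_smul]
        noncomm_ring
      rw [h6, h7, trace_sub, trace_sub, trace_mul_comm c, trace_mul_comm _ x]
    rw [h5]
    rw [mul_inv]
    ring
  rw [Finset.sum_congr rfl fun p _ => h3 p, ← Finset.mul_sum, ← trace_sum, ← Finset.mul_sum,
    Fintype.sum_prod_type, cas_eq S ((mem_lieAlg _).1 Y.2), mul_smul_comm, trace_smul,
    smul_eq_mul, mul_inv]
  ring

/-- The spin Lie algebra has a nondegenerate Killing form. -/
theorem isKilling_spin (hm : 3 ≤ m) : LieAlgebra.IsKilling ℂ (lieAlg (spin S)) := by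
  constructor
  rw [LieSubmodule.eq_bot_iff]
  intro X hX
  rw [LieIdeal.mem_killingCompl] at hX
  have h1 : ∀ k l : Fin m, trace (bv2 S k l * (X : Mt N ℂ)) = 0 := by
    intro k l
    have h2 := hX ⟨bv2 S k l, (mem_lieAlg _).2 (isLi_bv2 S hm k l)⟩ (LieSubmodule.mem_top _)
    rw [killing_eq S hm] at h2
    have h3 : (8 * (m : ℂ) - 16) * (N : ℂ)⁻¹ ≠ 0 := by
      apply mul_ne_zero
      · intro h4
        have h5 : (m : ℂ) = 2 := by linear_combination h4 / 8
        have h6 : m = 2 := by exact_mod_cast h5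
        omega
      · exact inv_ne_zero (trace_one_ne (N := N))
    exact (mul_eq_zero.1 h2).resolve_left h3
  apply Subtype.ext
  rw [← ofA_drho S ((mem_lieAlg _).1 X.2)]
  have h2 : drho S (X : Mt N ℂ) = 0 := by
    ext k l
    rw [drho_trace, h1, mul_zero]
    rfl
  rw [h2]
  unfold ofA
  simp

theorem kilDet_spin (hm : 3 ≤ m) : KilDet (spin S) :=
  have := isKilling_spin S hm
  kilDet_of_isKilling

end

end Vale.Agent.P286.H987
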