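import Vale.Agent.P286.H987.Unip
import Vale.Agent.P286.Gen.Kil

/-!
# Clifford systems and their spin groups
-/

namespace Vale.Agent.P286.H987

open Matrix Polynomial Vale.Agent.P286.Gen

noncomputable section

variable {m N : ℕ}

/-- Irreducible systems of gamma matrices. -/
structure CSys (m N : ℕ) where
  E : Fin m → Mt N ℂ
  sq : ∀ j, E j * E j = 1
  ac : ∀ j k, j ≠ k → E j * E k = -(E k * E j)
  herm : ∀ j, (E j).conjTranspose = E j
  irr : ∀ X : Mt N ℂ, (∀ j, X * E j = E j * X) → ∃ c : ℂ, X = c • (1 : Mt N ℂ)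

section Ring

variable {R : Type*} [Ring R] [Algebra ℂ R]

/-- The element `v w` is nilpotent. -/
theorem vw_sq {v w : R} (hv : v * v = 0) (hvw : v * w = -(w * v)) : (v * w) * (v * w) = 0 := by
  have h : (v * w) * (v * w) = -(v * v * (w * w)) := by
    calc (v * w) * (v * w) = v * (w * v) * w := by noncomm_ring
      _ = v * (-(v * w)) * w := by rw [hvw, neg_neg]
      _ = _ := by noncomm_ring
  rw [h, hv, zero_mul, neg_zero]

/-- The reflection formula. -/
theorem conj_vw {v w y : R} {a b : ℂ} (hv : v * v = 0) (hw : w * w = 1)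
    (hvw : v * w = -(w * v)) (hyv : y * v + v * y = (2 * a) • (1 : R))
    (hyw : y * w + w * y = (2 * b) • (1 : R)) (s : ℂ) :
    (1 + s • (v * w)) * y * (1 - s • (v * w)) =
      y + s • ((2 * b) • v - (2 * a) • w) - (s * s * (2 * a)) • v := by
  have e1 : w * y = (2 * b) • (1 : R) - y * w := by rw [← hyw]; abel
  have e2 : v * y = (2 * a) • (1 : R) - y * v := by rw [← hyv]; abel
  have h1 : (v * w) * y - y * (v * w) = (2 * b) • v - (2 * a) • w := by
    calc (v * w) * y - y * (v * w) = v * (w * y) - y * v * w := by noncomm_ring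
      _ = v * ((2 * b) • (1 : R) - y * w) - y * v * w := by rw [e1]
      _ = (2 * b) • v - (v * y) * w - y * v * w := by
          rw [mul_sub, mul_smul_comm, mul_one, mul_assoc v y w]
      _ = (2 * b) • v - ((2 * a) • (1 : R) - y * v) * w - y * v * w := by rw [e2]
      _ = _ := by rw [sub_mul, smul_mul_assoc, one_mul]; abel
  have h2 : (v * w) * y * (v * w) = (2 * a) • v := by
    have hwv : w * v = -(v * w) := by rw [hvw, neg_neg]
    calc (v * w) * y * (v * w) = v * (w * y) * (v * w) := by noncomm_ring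
      _ = v * ((2 * b) • (1 : R) - y * w) * (v * w) := by rw [e1]
      _ = (2 * b) • ((v * v) * w) - (v * y) * (w * v) * w := by
          rw [mul_sub, mul_smul_comm, mul_one, sub_mul, smul_mul_assoc]
          noncomm_ring
      _ = (v * y) * v * (w * w) := by
          rw [hv, zero_mul, smul_zero, hwv]
          noncomm_ring
      _ = ((2 * a) • (1 : R) - y * v) * v := by rw [e2, hw, mul_one]
      _ = (2 * a) • v - y * (v * v) := by rw [sub_mul, smul_mul_assoc, one_mul, mul_assoc]
      _ = _ := by rw [hv, mul_zero, sub_zero]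
  have h3 : (1 + s • (v * w)) * y * (1 - s • (v * w)) =
      y + s • ((v * w) * y - y * (v * w)) - (s * s) • ((v * w) * y * (v * w)) := by
    rw [add_mul, one_mul, smul_mul_assoc, mul_sub, mul_one, mul_smul_comm, add_mul,
      smul_mul_assoc, smul_add, smul_smul, smul_sub]
    abel
  rw [h3, h1, h2, smul_smul]

end Ring

variable (S : CSys m N)

/-- `∑ a_j E_j` -/
def vc {A : Type} [CommRing A] [Algebra ℂ A] (a : Fin m → A) : Mt N A := ∑ j, a j • cm A (S.E j)

section Cm

variable {A : Type} [CommRing A] [Algebra ℂ A]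

theorem cm_mul (x y : Mt N ℂ) : cm A (x * y) = cm A x * cm A y := Matrix.map_mul

theorem cm_one : cm A (1 : Mt N ℂ) = 1 := Matrix.map_one _ (map_zero _) (map_one _)

theorem cm_neg (x : Mt N ℂ) : cm A (-x) = -cm A x := by
  ext i j
  exact map_neg (algebraMap ℂ A) _

theorem cm_add (x y : Mt N ℂ) : cm A (x + y) = cm A x + cm A y := by
  ext i j
  exact map_add (algebraMap ℂ A) _ _

theorem cm_sub (x y : Mt N ℂ) : cm A (x - y) = cm A x - cm A y := by
  ext i j
  exact map_sub (algebraMap ℂ A) _ _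

theorem cm_zero : cm A (0 : Mt N ℂ) = 0 := by
  ext i j
  exact map_zero (algebraMap ℂ A)

theorem cm_smul (c : ℂ) (x : Mt N ℂ) : cm A (c • x) = c • cm A x := by
  ext i j
  change algebraMap ℂ A (c * x i j) = c • algebraMap ℂ A (x i j)
  rw [map_mul, Algebra.smul_def]

theorem cm_trace (x : Mt N ℂ) : trace (cm A x) = algebraMap ℂ A (trace x) := by
  simp [trace, cm]

theorem cm_sum {ι : Type*} (s : Finset ι) (x : ι → Mt N ℂ) :
    cm A (∑ i ∈ s, x i) = ∑ i ∈ s, cm A (x i) := by
  classical
  induction s using Finset.induction_on with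
  | empty => rw [Finset.sum_empty, Finset.sum_empty, cm_zero]
  | insert a s ha ih => rw [Finset.sum_insert ha, Finset.sum_insert ha, cm_add, ih]

end Cm

/-- The two relations in one. -/
theorem CSys.rel (j k : Fin m) :
    S.E j * S.E k + S.E k * S.E j = (2 * (if j = k then (1 : ℂ) else 0)) • (1 : Mt N ℂ) := by
  by_cases h : j = k
  · subst h
    rw [S.sq, if_pos rfl, mul_one, two_smul]
  · rw [S.ac j k h, if_neg h, mul_zero, zero_smul, neg_add_cancel]

theorem CSys.trace_mul {j k : Fin m} (h : j ≠ k) : trace (S.E j * S.E k) = 0 := by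
  have h1 : trace (S.E j * S.E k) = -trace (S.E j * S.E k) := by
    conv_lhs => rw [S.ac j k h, trace_neg, trace_mul_comm]
  have h2 : (2 : ℂ) * trace (S.E j * S.E k) = 0 := by linear_combination h1
  exact (mul_eq_zero.1 h2).resolve_left two_ne_zero

/-- The isotropic vector `E_p + c E_q`. -/
def iv (p q : Fin m) (c : ℂ) : Mt N ℂ := S.E p + c • S.E q

theorem iv_sq {p q : Fin m} (h : p ≠ q) {c : ℂ} (hc : c * c = -1) :
    iv S p q c * iv S p q c = 0 := by
  unfold iv
  have h1 := S.ac p q h
  calc (S.E p + c • S.E q) * (S.E p + c • S.E q) =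
        S.E p * S.E p + c • (S.E p * S.E q + S.E q * S.E p) + (c * c) • (S.E q * S.E q) := by
        simp only [add_mul, mul_add, smul_mul_assoc, mul_smul_comm, smul_add, smul_smul]
        abel
    _ = 0 := by
        rw [S.sq, S.sq, h1, neg_add_cancel, smul_zero, add_zero, hc, neg_smul, one_smul,
          add_neg_cancel]

theorem iv_ac {p q r : Fin m} (hp : p ≠ r) (hq : q ≠ r) (c : ℂ) :
    iv S p q c * S.E r = -(S.E r * iv S p q c) := by
  unfold iv
  rw [add_mul, mul_add, smul_mul_assoc, mul_smul_comm, S.ac p r hp, S.ac q r hq, smul_neg,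
    ← neg_add]

/-- The nilpotent matrix `(E_p + c E_q) E_r`. -/
def nl (p q r : Fin m) (c : ℂ) : Mt N ℂ := iv S p q c * S.E r

theorem nl_sq {p q r : Fin m} (hpq : p ≠ q) (hp : p ≠ r) (hq : q ≠ r) {c : ℂ} (hc : c * c = -1) :
    nl S p q r c * nl S p q r c = 0 :=
  vw_sq (iv_sq S hpq hc) (iv_ac S hp hq c)

theorem one_add_mul {p q r : Fin m} (hpq : p ≠ q) (hp : p ≠ r) (hq : q ≠ r) {c : ℂ}
    (hc : c * c = -1) (s t : ℂ) :
    (1 + s • nl S p q r c) * (1 + t • nl S p q r c) = 1 + (s + t) • nl S p q r c := by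
  have h := nl_sq S hpq hp hq hc
  simp only [add_mul, mul_add, one_mul, mul_one, smul_mul_assoc, mul_smul_comm, h, smul_zero,
    add_zero, add_smul]
  abel

theorem det_one_add {p q r : Fin m} (hpq : p ≠ q) (hp : p ≠ r) (hq : q ≠ r) {c : ℂ}
    (hc : c * c = -1) (s : ℂ) : (1 + s • nl S p q r c).det = 1 := by
  have h1 : S.E r * (1 + (s / 2) • nl S p q r c) * S.E r = 1 + (-(s / 2)) • nl S p q r c := by
    have h2 : S.E r * nl S p q r c * S.E r = -nl S p q r c := by
      unfold nl
      rw [mul_assoc, mul_assoc, S.sq, mul_one, iv_ac S hp hq, neg_neg]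
    rw [mul_add, add_mul, mul_one, S.sq, mul_smul_comm, smul_mul_assoc, h2, smul_neg, neg_smul]
  have h3 : (1 + (s / 2) • nl S p q r c).det = (1 + (-(s / 2)) • nl S p q r c).det := by
    rw [← h1, det_mul, det_mul]
    have h4 : (S.E r).det * (S.E r).det = 1 := by rw [← det_mul, S.sq, det_one]
    linear_combination (-(1 + (s / 2) • nl S p q r c).det) * h4
  have h5 : (1 + (s / 2) • nl S p q r c) * (1 + (s / 2) • nl S p q r c) =
      1 + s • nl S p q r c := by
    rw [one_add_mul S hpq hp hq hc, add_halves]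
  have h6 : (1 + (s / 2) • nl S p q r c) * (1 + (-(s / 2)) • nl S p q r c) = 1 := by
    rw [one_add_mul S hpq hp hq hc, add_neg_cancel, zero_smul, add_zero]
  calc (1 + s • nl S p q r c).det =
        (1 + (s / 2) • nl S p q r c).det * (1 + (s / 2) • nl S p q r c).det := by
        rw [← det_mul, h5]
    _ = (1 + (s / 2) • nl S p q r c).det * (1 + (-(s / 2)) • nl S p q r c).det := by
        conv_lhs => rhs; rw [h3]
    _ = 1 := by rw [← det_mul, h6, det_one]

end

end Vale.Agent.P286.H987
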