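import Vale.Agent.P286.H987.Uni
import Vale.Agent.P286.H341.E0Dat
import Vale.Agent.P286.H44.LDi
import Vale.Agent.P286.H295.LamG

/-!
# The Weil algebra computes the cohomology of the group
-/

namespace Vale.Agent.P286.H987

open Matrix Vale.Agent.P286.H341 Vale.Agent.P286.H847 Vale.Agent.P286.H166 Vale.Agent.P286.H710
  Vale.Agent.P286.H44 Vale.Agent.P286.Gen Vale.Agent.P286.H295 Vale.Agent.P286.H103

noncomputable section

variable {N : ℕ} {Γ : Gps N} {I : Type} [Fintype I] [DecidableEq I] {S : H374.Dat I} {n : ℕ}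

/-- **(E0)**: the evaluation of the Weil algebra with the `ξ` at the universal point is a
quasi-isomorphism. -/
theorem e0 (E : E0D Γ S n) : GD.Qis (E.P.R.evU n) := by
  obtain ⟨k, e, h⟩ := exists_onb_lieS S
  have hL := dLam_dLam E.P h E.prime
  refine E.P.R.qis_of_comp n (rsLie S h E.cls.hn E.cls.hex E.cls.hai)
    (SG.prHom (E.sg h) (ld_lieSD S h E.cls.hn E.cls.hex E.cls.hai).DD hL)
    (lgHom E.P h E.prime hL) (qis_rsLie S h E.cls.hn E.cls.hex E.cls.hai)
    (SG.qis_prHom (E.sg h) (ld_lieSD S h E.cls.hn E.cls.hex E.cls.hai).DD hL)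
    (qis_lgHom E.P h E.prime E.dag hL) fun x => ?_
  refine comp_eq_ev (d := E.sd h) (e := e) (fun a => (E.sd h).agF a) (lg E.P e).toLinearMap
    (fun a => lg E.P e (Ex.gn a)) (map_one (lg E.P e)) (fun a x => map_mul (lg E.P e) _ _)
    (E.P.R.evx n (ug Γ)⁻¹) (fun i j => evx_th_eq E.P h E.prime n i j) (fun t => ev_xi _ t)
    (fun f => ev_inP _ f) x

/-- (E0) for the symplectic group. -/
theorem e0_sp (n : ℕ) : GD.Qis ((FRep.sp n).R.evU n) := e0 (E0D.sp n)

/-- (E0) for the odd special orthogonal group. -/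
theorem e0_so (n : ℕ) : GD.Qis ((FRep.so n).R.evU n) := e0 (E0D.so n)

/-- (E0) for the odd spin group. -/
theorem e0_spn (n : ℕ) (hn : 0 < n) : GD.Qis ((FRep.spn n hn).R.evU n) := e0 (E0D.spn n hn)

end

end Vale.Agent.P286.H987
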