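import Vale.Agent.P286.H847.WkDef
import Vale.Agent.P286.H44.OmGD

/-!
# The evaluation of the Weil algebra at a flat connection

`ev η : Wk I n → Om ℂ B` sends `θ_ij` to the one-form `η_ij` and `ξ`, `F` to zero; it commutes with
the differentials if `dη = - η η`, for instance for `η = u d(u⁻¹)`.
-/

namespace Vale.Agent.P286.H987

open TensorProduct Matrix Vale.Agent.P286.H710 Vale.Agent.P286.H847

noncomputable section

set_option linter.unusedSectionVars false

variable {I : Type} [Fintype I] [DecidableEq I] {n : ℕ} {B D : Type} [CommRing B] [Algebra ℂ B]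
  [CommRing D] [Algebra ℂ D]

/-- A form of degree one times a complex number. -/
theorem iota_cs (c : ℂ) (m : Ω[B⁄ℂ]) : c • (ExteriorAlgebra.ι B m : Om ℂ B) =
    ExteriorAlgebra.ι B (algebraMap ℂ B c • m) := by
  rw [map_smul]
  exact (algebraMap_smul B c _).symm

/-- The values on the odd generators. -/
def evv (η : Matrix I I (Ω[B⁄ℂ])) (a : Gn I n) : Ω[B⁄ℂ] :=
  Sum.elim (fun s => η s.1 s.2) (fun _ => 0) a

/-- The evaluation on the exterior algebra. -/
def evL (η : Matrix I I (Ω[B⁄ℂ])) : Lm I n →ₐ[ℂ] Om ℂ B :=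
  ExteriorAlgebra.lift ℂ ⟨Fintype.linearCombination ℂ fun a => ExteriorAlgebra.ι B (evv η a),
    fun m => by
      have h : Fintype.linearCombination ℂ (fun a => (ExteriorAlgebra.ι B (evv η a) : Om ℂ B)) m =
          ExteriorAlgebra.ι B (∑ a, algebraMap ℂ B (m a) • evv η a) := by
        rw [Fintype.linearCombination_apply, map_sum]
        exact Finset.sum_congr rfl fun i _ => iota_cs _ _
      rw [h, ExteriorAlgebra.ι_sq_zero]⟩

theorem evL_ι (η : Matrix I I (Ω[B⁄ℂ])) (m : Gn I n → ℂ) :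
    evL η (ExteriorAlgebra.ι ℂ m) = ∑ a, m a • (ExteriorAlgebra.ι B (evv η a) : Om ℂ B) := by
  rw [evL, ExteriorAlgebra.lift_ι_apply, Fintype.linearCombination_apply]

/-- The evaluation on the polynomial algebra. -/
def evP (I B : Type) [CommRing B] [Algebra ℂ B] : Pl I →ₐ[ℂ] Om ℂ B :=
  (Algebra.ofId ℂ (Om ℂ B)).comp (MvPolynomial.aeval fun _ => (0 : ℂ))

theorem evP_apply (p : Pl I) :
    evP I B p = algebraMap ℂ (Om ℂ B) (MvPolynomial.aeval (fun _ => (0 : ℂ)) p) := rfl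

/-- The evaluation. -/
def ev (η : Matrix I I (Ω[B⁄ℂ])) : Wk I n →ₐ[ℂ] Om ℂ B :=
  Algebra.TensorProduct.lift (evL η) (evP I B) fun x y => by
    rw [evP_apply]
    exact (Algebra.commutes _ _).symm

theorem ev_tmul (η : Matrix I I (Ω[B⁄ℂ])) (x : Lm I n) (p : Pl I) :
    ev η (x ⊗ₜ[ℂ] p : Wk I n) = evL η x * evP I B p := Algebra.TensorProduct.lift_tmul _ _ _ _ _

theorem ev_inL (η : Matrix I I (Ω[B⁄ℂ])) (x : Lm I n) : ev η (Wk.inL I n x) = evL η x := by
  rw [Wk.inL, Algebra.TensorProduct.includeLeft_apply, ev_tmul, map_one, mul_one]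

theorem ev_inP (η : Matrix I I (Ω[B⁄ℂ])) (p : Pl I) : ev η (Wk.inP I n p) =
    algebraMap ℂ (Om ℂ B) (MvPolynomial.aeval (fun _ => (0 : ℂ)) p) := by
  rw [Wk.inP, Algebra.TensorProduct.includeRight_apply, ev_tmul, map_one, one_mul, evP_apply]

theorem ev_gn (η : Matrix I I (Ω[B⁄ℂ])) (a : Gn I n) :
    ev η (Wk.gn I n a) = ExteriorAlgebra.ι B (evv η a) := by
  rw [Wk.gn, ev_inL, evL_ι, Finset.sum_eq_single a]
  · rw [Pi.single_eq_same, one_smul]
  · intro b _ hb
    rw [Pi.single_eq_of_ne hb, zero_smul]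
  · intro h
    exact absurd (Finset.mem_univ a) h

theorem ev_th (η : Matrix I I (Ω[B⁄ℂ])) (i j : I) :
    ev η (Wk.th I n i j) = ExteriorAlgebra.ι B (η i j) := ev_gn η _

theorem ev_xi (η : Matrix I I (Ω[B⁄ℂ])) (t : Fin n) : ev η (Wk.xi I n t) = 0 := by
  rw [Wk.xi, ev_gn]
  exact map_zero _

theorem ev_Fm (η : Matrix I I (Ω[B⁄ℂ])) (i j : I) : ev η (Wk.Fm I n i j) = 0 := by
  have h : Wk.Fm I n i j = Wk.inP I n (MvPolynomial.X (i, j)) := rfl
  rw [h, ev_inP, MvPolynomial.aeval_X, map_zero]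

/-- The invariants have no constant term. -/
theorem ep_zero {k : ℕ} (hk : 0 < k) :
    (MvPolynomial.aeval fun _ => (0 : ℂ)) (Wk.ep I k) = (0 : ℂ) := by
  unfold Wk.ep
  split_ifs with h
  · have h1 := Matrix.charpoly_map (Matrix.mvPolynomialX I I ℂ)
      (MvPolynomial.aeval (fun _ => (0 : ℂ)) : MvPolynomial (I × I) ℂ →ₐ[ℂ] ℂ).toRingHom
    have h2 : (Matrix.mvPolynomialX I I ℂ).map
        (MvPolynomial.aeval (fun _ => (0 : ℂ)) : MvPolynomial (I × I) ℂ →ₐ[ℂ] ℂ).toRingHom = 0 := by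
      ext i j
      simp [Matrix.mvPolynomialX]
    rw [h2, Matrix.charpoly_zero] at h1
    have h3 := congrArg (fun q : Polynomial ℂ => q.coeff (Fintype.card I - k)) h1
    simp only [Polynomial.coeff_map, Polynomial.coeff_X_pow] at h3
    rw [if_neg (by omega)] at h3
    exact h3.symm
  · exact map_zero _

theorem ev_y (η : Matrix I I (Ω[B⁄ℂ])) (t : Fin n) : ev η (Wk.y I n t) = 0 := by
  rw [Wk.y, ev_inP, ep_zero (by omega), map_zero]

/-- The evaluation commutes with the sign automorphisms. -/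
theorem ev_sg (η : Matrix I I (Ω[B⁄ℂ])) (w : Wk I n) :
    ev η (Wk.sg I n w) = Om.sg (ev η w) := by
  induction w using TensorProduct.induction_on with
  | zero => rw [map_zero, map_zero, map_zero]
  | add x y hx hy => rw [map_add, map_add, map_add, map_add, hx, hy]
  | tmul x p =>
    change ev η ((CliffordAlgebra.involute x : Lm I n) ⊗ₜ[ℂ] p) = _
    rw [ev_tmul, ev_tmul, map_mul, evP_apply, IsScalarTower.algebraMap_apply ℂ B (Om ℂ B),
      Om.sg.commutes]
    congr 1
    induction x using ExteriorAlgebra.induction with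
    | algebraMap r =>
      have h : (CliffordAlgebra.involute (algebraMap ℂ (Lm I n) r) : Lm I n) =
        algebraMap ℂ _ r := AlgHom.commutes _ _
      rw [h, AlgHom.commutes, IsScalarTower.algebraMap_apply ℂ B (Om ℂ B), Om.sg.commutes]
    | ι x =>
      have h : (CliffordAlgebra.involute (ExteriorAlgebra.ι ℂ x) : Lm I n) =
        - ExteriorAlgebra.ι ℂ x := CliffordAlgebra.involute_ι x
      rw [h, map_neg, evL_ι, map_sum, ← Finset.sum_neg_distrib]
      refine Finset.sum_congr rfl fun a _ => ?_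
      rw [Om.sg_csmul, Om.sg_ι, smul_neg]
    | mul a b ha hb => rw [map_mul, map_mul, map_mul, map_mul, ha, hb]
    | add a b ha hb => rw [map_add, map_add, map_add, map_add, ha, hb]

/-- Two-forms commute with one-forms. -/
theorem two_comm {w : Om ℂ B} (hw : Om.sg w = w) (m : Ω[B⁄ℂ]) :
    w * ExteriorAlgebra.ι B m = ExteriorAlgebra.ι B m * w := by
  rw [Om.ι_mul, hw]

/-- The formula for the differential of a form in the image. -/
theorem d_evL (η : Matrix I I (Ω[B⁄ℂ])) (x : Lm I n) : Om.d (evL η x) =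
    ∑ s : I × I, Om.d (ExteriorAlgebra.ι B (η s.1 s.2)) *
      evL η (CliffordAlgebra.contractLeft (LinearMap.proj (Sum.inl s : Gn I n)) x : Lm I n) := by
  induction x using CliffordAlgebra.left_induction with
  | algebraMap r =>
    have h : ∀ s : I × I, (CliffordAlgebra.contractLeft
        (LinearMap.proj (Sum.inl s : Gn I n) : (Gn I n → ℂ) →ₗ[ℂ] ℂ) (algebraMap ℂ _ r) : Lm I n) = 0 :=
      fun s => CliffordAlgebra.contractLeft_algebraMap _ _ _
    have h1 : ∀ s : I × I, s ∈ Finset.univ → Om.d (ExteriorAlgebra.ι B (η s.1 s.2)) *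
      evL η (CliffordAlgebra.contractLeft (LinearMap.proj (Sum.inl s : Gn I n))
        (algebraMap ℂ _ r) : Lm I n) = 0 := by
      intro s _
      rw [h, map_zero, mul_zero]
    rw [Finset.sum_eq_zero h1]
    have h2 : evL η (algebraMap ℂ (Lm I n) r) = algebraMap ℂ (Om ℂ B) r := AlgHom.commutes _ _
    refine (congrArg Om.d h2).trans ?_
    rw [IsScalarTower.algebraMap_apply ℂ B (Om ℂ B), Om.d_algebraMap, Om.dd_const]
  | add x y hx hy =>
    rw [map_add, Om.d_add, hx, hy, ← Finset.sum_add_distrib]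
    refine Finset.sum_congr rfl fun s _ => ?_
    rw [map_add, map_add, mul_add]
  | ι_mul x m hx =>
    have h0 : ∀ s : I × I, (CliffordAlgebra.contractLeft
        (LinearMap.proj (Sum.inl s : Gn I n) : (Gn I n → ℂ) →ₗ[ℂ] ℂ)
        (CliffordAlgebra.ι _ m * x) : Lm I n) = m (Sum.inl s) • x - CliffordAlgebra.ι _ m *
          CliffordAlgebra.contractLeft (LinearMap.proj (Sum.inl s : Gn I n)) x :=
      fun s => CliffordAlgebra.contractLeft_ι_mul _ _ _
    obtain ⟨μ, hμ⟩ : ∃ μ : Ω[B⁄ℂ], evL η (CliffordAlgebra.ι _ m : Lm I n) =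
        ExteriorAlgebra.ι B μ := by
      refine ⟨∑ a, algebraMap ℂ B (m a) • evv η a, ?_⟩
      have h := evL_ι η m
      refine h.trans ?_
      rw [map_sum]
      exact Finset.sum_congr rfl fun a _ => iota_cs _ _
    have h1 : Om.d (ExteriorAlgebra.ι B μ : Om ℂ B) =
        ∑ s : I × I, m (Sum.inl s) • Om.d (ExteriorAlgebra.ι B (η s.1 s.2)) := by
      rw [← hμ]
      have h := evL_ι η m
      refine (congrArg Om.d h).trans ?_
      rw [Om.d_sum, Fintype.sum_sum_type]
      have h2 : ∀ t : Fin n, t ∈ Finset.univ →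
          Om.d (m (Sum.inr t) • (ExteriorAlgebra.ι B (evv η (Sum.inr t)) : Om ℂ B)) = 0 := by
        intro t _
        have h3 : (ExteriorAlgebra.ι B (evv η (Sum.inr t : Gn I n)) : Om ℂ B) = 0 := map_zero _
        rw [h3, smul_zero, Om.d_zero]
      rw [Finset.sum_eq_zero h2, add_zero]
      exact Finset.sum_congr rfl fun s _ => Om.d_csmul _ _
    rw [map_mul, hμ, Om.d_mul, Om.sg_ι, hx, h1, Finset.sum_mul, neg_mul, Finset.mul_sum,
      ← Finset.sum_neg_distrib, ← Finset.sum_add_distrib]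
    refine Finset.sum_congr rfl fun s _ => ?_
    rw [h0, map_sub, map_smul, map_mul, hμ, mul_sub, smul_mul_assoc, mul_smul_comm, ← mul_assoc,
      ← mul_assoc, two_comm (w := Om.d (ExteriorAlgebra.ι B (η s.1 s.2)))]
    · rw [sub_eq_add_neg, add_comm]
    · have h4 := Om.d_sg (ExteriorAlgebra.ι B (η s.1 s.2) : Om ℂ B)
      rw [Om.sg_ι, Om.d_neg] at h4
      exact (neg_injective h4).symm

/-- The matrix of forms satisfies the Maurer–Cartan equation. -/
def IsMC (η : Matrix I I (Ω[B⁄ℂ])) : Prop := ∀ i j, Om.d (ExteriorAlgebra.ι B (η i j) : Om ℂ B) =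
  -∑ k, ExteriorAlgebra.ι B (η i k) * ExteriorAlgebra.ι B (η k j)

theorem ev_dgn {η : Matrix I I (Ω[B⁄ℂ])} (hη : IsMC η) (a : Gn I n) :
    ev η (Wk.dgn I n a) = Om.d (ExteriorAlgebra.ι B (evv η a)) := by
  rcases a with s | t
  · have h : Wk.dgn I n (Sum.inl s) = Wk.Fm I n s.1 s.2 -
        ∑ k, Wk.th I n s.1 k * Wk.th I n k s.2 := rfl
    rw [h, map_sub, ev_Fm, map_sum, zero_sub]
    refine Eq.trans ?_ (hη s.1 s.2).symm
    congr 1
    exact Finset.sum_congr rfl fun k _ => by rw [map_mul, ev_th, ev_th]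
  · have h : Wk.dgn I n (Sum.inr t) = Wk.y I n t := rfl
    have h1 : (ExteriorAlgebra.ι B (evv η (Sum.inr t : Gn I n)) : Om ℂ B) = 0 := map_zero _
    rw [h, ev_y, h1, Om.d_zero]

theorem ev_dF (η : Matrix I I (Ω[B⁄ℂ])) (s : I × I) : ev η (Wk.dF I n s) = 0 := by
  have h : Wk.dF I n s = ∑ k, Wk.Fm I n s.1 k * Wk.th I n k s.2 -
      ∑ k, Wk.th I n s.1 k * Wk.Fm I n k s.2 := rfl
  rw [h, map_sub, map_sum, map_sum]
  have h1 : ∀ k ∈ (Finset.univ : Finset I), ev η (Wk.Fm I n s.1 k * Wk.th I n k s.2) = 0 := by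
    intro k _
    rw [map_mul, ev_Fm, zero_mul]
  have h2 : ∀ k ∈ (Finset.univ : Finset I), ev η (Wk.th I n s.1 k * Wk.Fm I n k s.2) = 0 := by
    intro k _
    rw [map_mul, ev_Fm, mul_zero]
  rw [Finset.sum_eq_zero h1, Finset.sum_eq_zero h2, sub_zero]

/-- The evaluation commutes with the differentials. -/
theorem ev_d {η : Matrix I I (Ω[B⁄ℂ])} (hη : IsMC η) (w : Wk I n) :
    ev η (Wk.d I n w) = Om.d (ev η w) := by
  induction w using TensorProduct.induction_on with
  | zero => rw [map_zero, map_zero, Om.d_zero]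
  | add x y hx hy => rw [map_add, map_add, map_add, Om.d_add, hx, hy]
  | tmul x p =>
    have h : Wk.d I n (x ⊗ₜ[ℂ] p) = ∑ a, Wk.dgn I n a * Wk.ct I n a (x ⊗ₜ[ℂ] p) +
        ∑ s, Wk.dF I n s * Wk.pd I n s (x ⊗ₜ[ℂ] p) := by
      rw [Wk.d, LinearMap.add_apply, LinearMap.sum_apply, LinearMap.sum_apply]
      rfl
    have h1 : ∀ s ∈ (Finset.univ : Finset (I × I)),
        ev η (Wk.dF I n s * Wk.pd I n s (x ⊗ₜ[ℂ] p)) = 0 := by
      intro s _
      rw [map_mul, ev_dF, zero_mul]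
    have h2 : ∀ t ∈ (Finset.univ : Finset (Fin n)),
        ev η (Wk.dgn I n (Sum.inr t) * Wk.ct I n (Sum.inr t) (x ⊗ₜ[ℂ] p)) = 0 := by
      intro t _
      have h3 : Wk.dgn I n (Sum.inr t) = Wk.y I n t := rfl
      rw [map_mul, h3, ev_y, zero_mul]
    rw [h, map_add, map_sum, map_sum, Finset.sum_eq_zero h1, add_zero, Fintype.sum_sum_type,
      Finset.sum_eq_zero h2, add_zero, ev_tmul, evP_apply, ← Algebra.commutes,
      ← Algebra.smul_def, Om.d_csmul, d_evL, Finset.smul_sum]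
    refine Finset.sum_congr rfl fun s _ => ?_
    have h4 : Wk.ct I n (Sum.inl s) (x ⊗ₜ[ℂ] p) = (CliffordAlgebra.contractLeft
        (LinearMap.proj (Sum.inl s : Gn I n)) x : Lm I n) ⊗ₜ[ℂ] p := rfl
    have h5 : evv η (Sum.inl s : Gn I n) = η s.1 s.2 := rfl
    rw [map_mul, ev_dgn hη, h4, ev_tmul, evP_apply, ← Algebra.commutes, ← Algebra.smul_def,
      mul_smul_comm, h5]

/-- The pull-back of a matrix of forms. -/
def pbM (f : B →ₐ[ℂ] D) (η : Matrix I I (Ω[B⁄ℂ])) (η' : Matrix I I (Ω[D⁄ℂ])) : Prop :=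
  ∀ i j, Om.pb f (ExteriorAlgebra.ι B (η i j)) = ExteriorAlgebra.ι D (η' i j)

/-- Naturality of the evaluation. -/
theorem pb_ev {f : B →ₐ[ℂ] D} {η : Matrix I I (Ω[B⁄ℂ])} {η' : Matrix I I (Ω[D⁄ℂ])}
    (h : pbM f η η') (w : Wk I n) : Om.pb f (ev η w) = ev η' w := by
  have hc : ∀ c : ℂ, Om.pb f (algebraMap ℂ (Om ℂ B) c) = algebraMap ℂ (Om ℂ D) c := by
    intro c
    rw [IsScalarTower.algebraMap_apply ℂ B (Om ℂ B), Om.pb_alg, AlgHom.commutes,
      ← IsScalarTower.algebraMap_apply ℂ D (Om ℂ D)]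
  induction w using TensorProduct.induction_on with
  | zero => rw [map_zero, map_zero, map_zero]
  | add x y hx hy => rw [map_add, map_add, map_add, hx, hy]
  | tmul x p =>
    rw [ev_tmul, ev_tmul, map_mul, evP_apply, evP_apply, hc]
    congr 1
    induction x using ExteriorAlgebra.induction with
    | algebraMap r => rw [AlgHom.commutes, AlgHom.commutes, hc]
    | ι x =>
      rw [evL_ι, evL_ι, map_sum]
      refine Finset.sum_congr rfl fun a _ => ?_
      rw [Om.pb_csmul]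
      congr 1
      rcases a with s | t
      · exact h s.1 s.2
      · have h1 : (ExteriorAlgebra.ι B (evv η (Sum.inr t : Gn I n)) : Om ℂ B) = 0 := map_zero _
        have h2 : (ExteriorAlgebra.ι D (evv η' (Sum.inr t : Gn I n)) : Om ℂ D) = 0 := map_zero _
        rw [h1, h2, map_zero]
    | mul a b ha hb => rw [map_mul, map_mul, map_mul, ha, hb]
    | add a b ha hb => rw [map_add, map_add, map_add, ha, hb]

end

end Vale.Agent.P286.H987
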