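import Vale.Agent.P286.H987.Ev

/-!
# The evaluation of the Weil algebra preserves the degrees
-/

namespace Vale.Agent.P286.H987

open TensorProduct Matrix Vale.Agent.P286.H710 Vale.Agent.P286.H847 Vale.Agent.P286.H44

noncomputable section

set_option linter.unusedSectionVars false

variable {I : Type} [Fintype I] [DecidableEq I] {n : ℕ} {B D : Type} [CommRing B] [Algebra ℂ B]
  [CommRing D] [Algebra ℂ D]

/-- The component of degree `p` of a form. -/
def cmp (B : Type) [CommRing B] [Algebra ℂ B] (p : ℕ) : Om ℂ B →ₗ[B] Om ℂ B :=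
  GradedAlgebra.proj (Om.gr ℂ B) p

theorem cmp_apply (p : ℕ) (x : Om ℂ B) :
    cmp B p x = (DirectSum.decompose (Om.gr ℂ B) x p : Om ℂ B) := rfl

theorem cmp_succ (p : ℕ) (m : Ω[B⁄ℂ]) (x : Om ℂ B) :
    cmp B (1 + p) (ExteriorAlgebra.ι B m * x) = ExteriorAlgebra.ι B m * cmp B p x :=
  DirectSum.coe_decompose_mul_add_of_left_mem (Om.gr ℂ B) (Om.ι_mem m)

theorem cmp_zero (m : Ω[B⁄ℂ]) (x : Om ℂ B) : cmp B 0 (ExteriorAlgebra.ι B m * x) = 0 :=
  DirectSum.coe_decompose_mul_of_left_mem_of_not_le (Om.gr ℂ B) (Om.ι_mem m) (by omega)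

theorem cmp_csmul (p : ℕ) (c : ℂ) (x : Om ℂ B) : cmp B p (c • x) = c • cmp B p x := by
  rw [cmul_eq, map_smul, ← cmul_eq]

theorem eq_of_cmp {x y : Om ℂ B} (h : ∀ p, cmp B p x = cmp B p y) : x = y := by
  apply (DirectSum.decompose (Om.gr ℂ B)).injective
  apply DFinsupp.ext
  intro p
  exact Subtype.ext (h p)

theorem cmp_mem (p : ℕ) (x : Om ℂ B) : cmp B p x ∈ Om.gr ℂ B p :=
  (DirectSum.decompose (Om.gr ℂ B) x p).2

theorem cmp_of_mem {p q : ℕ} {x : Om ℂ B} (hx : x ∈ Om.gr ℂ B p) :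
    cmp B q x = if q = p then x else 0 := by
  split_ifs with h
  · subst h
    exact DirectSum.decompose_of_mem_same _ hx
  · exact DirectSum.decompose_of_mem_ne _ hx (Ne.symm h)

/-- The degree of the image of the exterior algebra. -/
theorem cmp_evL (η : Matrix I I (Ω[B⁄ℂ])) (x : Lm I n) : ∀ p : ℕ, cmp B p (∑ s : I × I,
    ExteriorAlgebra.ι B (η s.1 s.2) *
      evL η (CliffordAlgebra.contractLeft (LinearMap.proj (Sum.inl s : Gn I n)) x : Lm I n)) =
    (p : ℂ) • cmp B p (evL η x) := by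
  induction x using CliffordAlgebra.left_induction with
  | algebraMap r =>
    intro p
    have h : ∀ s : I × I, (CliffordAlgebra.contractLeft
        (LinearMap.proj (Sum.inl s : Gn I n) : (Gn I n → ℂ) →ₗ[ℂ] ℂ) (algebraMap ℂ _ r) : Lm I n) = 0 :=
      fun s => CliffordAlgebra.contractLeft_algebraMap _ _ _
    have h1 : ∀ s : I × I, s ∈ Finset.univ → ExteriorAlgebra.ι B (η s.1 s.2) *
      evL η (CliffordAlgebra.contractLeft (LinearMap.proj (Sum.inl s : Gn I n))
        (algebraMap ℂ _ r) : Lm I n) = 0 := by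
      intro s _
      rw [h, map_zero, mul_zero]
    rw [Finset.sum_eq_zero h1, map_zero]
    have h2 : evL η (algebraMap ℂ (Lm I n) r) = algebraMap B (Om ℂ B) (algebraMap ℂ B r) :=
      AlgHom.commutes _ _
    have h3 := cmp_of_mem (q := p) (Om.alg_mem (k := ℂ) (algebraMap ℂ B r))
    have h4 : cmp B p (evL η (algebraMap ℂ (Lm I n) r)) =
        if p = 0 then algebraMap B (Om ℂ B) (algebraMap ℂ B r) else 0 :=
      (congrArg (cmp B p) h2).trans h3
    refine Eq.trans ?_ (congrArg ((p : ℂ) • ·) h4).symm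
    by_cases hp : p = 0
    · subst hp
      simp
    · simp [hp]
  | add x y hx hy =>
    intro p
    rw [map_add (evL η), map_add (cmp B p), smul_add, ← hx, ← hy, ← map_add,
      ← Finset.sum_add_distrib]
    congr 1
    refine Finset.sum_congr rfl fun s _ => ?_
    rw [map_add, map_add, mul_add]
  | ι_mul x m hx =>
    intro p
    have h0 : ∀ s : I × I, (CliffordAlgebra.contractLeft
        (LinearMap.proj (Sum.inl s : Gn I n) : (Gn I n → ℂ) →ₗ[ℂ] ℂ)
        (CliffordAlgebra.ι _ m * x) : Lm I n) = m (Sum.inl s) • x - CliffordAlgebra.ι _ m *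
          CliffordAlgebra.contractLeft (LinearMap.proj (Sum.inl s : Gn I n)) x :=
      fun s => CliffordAlgebra.contractLeft_ι_mul _ _ _
    have h5 : (∑ a, m a • (ExteriorAlgebra.ι B (evv η a) : Om ℂ B)) =
        ∑ s : I × I, m (Sum.inl s) • (ExteriorAlgebra.ι B (η s.1 s.2) : Om ℂ B) := by
      rw [Fintype.sum_sum_type]
      have h2 : ∀ t : Fin n, t ∈ Finset.univ →
          m (Sum.inr t) • (ExteriorAlgebra.ι B (evv η (Sum.inr t)) : Om ℂ B) = 0 := by
        intro t _
        have h3 : (ExteriorAlgebra.ι B (evv η (Sum.inr t : Gn I n)) : Om ℂ B) = 0 := map_zero _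
        rw [h3, smul_zero]
      rw [Finset.sum_eq_zero h2, add_zero]
      rfl
    obtain ⟨μ, hμ, hμ'⟩ : ∃ μ : Ω[B⁄ℂ], evL η (CliffordAlgebra.ι _ m : Lm I n) =
        ExteriorAlgebra.ι B μ ∧ (ExteriorAlgebra.ι B μ : Om ℂ B) =
          ∑ s : I × I, m (Sum.inl s) • (ExteriorAlgebra.ι B (η s.1 s.2) : Om ℂ B) := by
      have h : evL η (CliffordAlgebra.ι _ m : Lm I n) =
          ExteriorAlgebra.ι B (∑ a, algebraMap ℂ B (m a) • evv η a) := by
        refine (evL_ι η m).trans ?_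
        rw [map_sum]
        exact Finset.sum_congr rfl fun a _ => iota_cs _ _
      exact ⟨_, h, h.symm.trans ((evL_ι η m).trans h5)⟩
    have h6 : ∑ s : I × I, ExteriorAlgebra.ι B (η s.1 s.2) *
        evL η (CliffordAlgebra.contractLeft
          (LinearMap.proj (Sum.inl s : Gn I n)) (CliffordAlgebra.ι _ m * x) : Lm I n) =
        ExteriorAlgebra.ι B μ * evL η x + ExteriorAlgebra.ι B μ *
          ∑ s : I × I, ExteriorAlgebra.ι B (η s.1 s.2) * evL η (CliffordAlgebra.contractLeft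
            (LinearMap.proj (Sum.inl s : Gn I n)) x : Lm I n) := by
      conv_rhs => rw [Finset.mul_sum]
      nth_rewrite 1 [hμ']
      rw [Finset.sum_mul, ← Finset.sum_add_distrib]
      refine Finset.sum_congr rfl fun s _ => ?_
      rw [h0, map_sub, map_smul, map_mul, hμ, mul_sub, smul_mul_assoc, mul_smul_comm, ← mul_assoc,
        ← mul_assoc, sub_eq_add_neg]
      congr 1
      rw [← neg_mul]
      congr 1
      exact neg_eq_of_add_eq_zero_right (ExteriorAlgebra.ι_add_mul_swap _ _)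
    have h7 : evL η (CliffordAlgebra.ι _ m * x : Lm I n) = ExteriorAlgebra.ι B μ * evL η x := by
      rw [map_mul, hμ]
    refine (congrArg (cmp B p) h6).trans ?_
    refine Eq.trans ?_ (congrArg (fun z => (p : ℂ) • cmp B p z) h7).symm
    rcases p with _ | p
    · rw [map_add, cmp_zero, cmp_zero, add_zero]
      simp
    · change _ = ((p + 1 : ℕ) : ℂ) • cmp B (p + 1) _
      rw [add_comm p 1, map_add, cmp_succ, cmp_succ, hx p, mul_smul_comm]
      push_cast
      rw [add_smul, one_smul]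

theorem cmp_ev (η : Matrix I I (Ω[B⁄ℂ])) (w : Wk I n) (p : ℕ) :
    cmp B p (ev η (Wk.Nm I n w)) = (p : ℂ) • cmp B p (ev η w) := by
  induction w using TensorProduct.induction_on with
  | zero => rw [map_zero, map_zero, map_zero, smul_zero]
  | add x y hx hy => rw [map_add, map_add, map_add, map_add, map_add, hx, hy, smul_add]
  | tmul x q =>
    have h : Wk.Nm I n (x ⊗ₜ[ℂ] q) =
        ∑ a, ((Wk.dg I n a : ℤ) : ℂ) • (Wk.gn I n a * Wk.ct I n a (x ⊗ₜ[ℂ] q)) +
        ∑ s : I × I, (2 : ℂ) • (Wk.Fm I n s.1 s.2 * Wk.pd I n s (x ⊗ₜ[ℂ] q)) := by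
      rw [Wk.Nm, LinearMap.add_apply, LinearMap.sum_apply, LinearMap.sum_apply]
      rfl
    have h1 : ∀ s ∈ (Finset.univ : Finset (I × I)),
        ev η ((2 : ℂ) • (Wk.Fm I n s.1 s.2 * Wk.pd I n s (x ⊗ₜ[ℂ] q))) = 0 := by
      intro s _
      rw [map_smul, map_mul, ev_Fm, zero_mul, smul_zero]
    have h2 : ∀ t ∈ (Finset.univ : Finset (Fin n)),
        ev η (((Wk.dg I n (Sum.inr t) : ℤ) : ℂ) • (Wk.gn I n (Sum.inr t) *
          Wk.ct I n (Sum.inr t) (x ⊗ₜ[ℂ] q))) = 0 := by
      intro t _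
      have h3 : Wk.gn I n (Sum.inr t) = Wk.xi I n t := rfl
      rw [map_smul, map_mul, h3, ev_xi, zero_mul, smul_zero]
    have h6 : ev η (Wk.Nm I n (x ⊗ₜ[ℂ] q)) =
        (MvPolynomial.aeval (fun _ => (0 : ℂ)) q) • ∑ s : I × I, ExteriorAlgebra.ι B (η s.1 s.2) *
          evL η (CliffordAlgebra.contractLeft
            (LinearMap.proj (Sum.inl s : Gn I n)) x : Lm I n) := by
      rw [h, map_add, map_sum, map_sum, Finset.sum_eq_zero h1, add_zero, Fintype.sum_sum_type,
        Finset.sum_eq_zero h2, add_zero, Finset.smul_sum]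
      refine Finset.sum_congr rfl fun s _ => ?_
      have h4 : Wk.ct I n (Sum.inl s) (x ⊗ₜ[ℂ] q) = (CliffordAlgebra.contractLeft
          (LinearMap.proj (Sum.inl s : Gn I n)) x : Lm I n) ⊗ₜ[ℂ] q := rfl
      have h5 : evv η (Sum.inl s : Gn I n) = η s.1 s.2 := rfl
      have h7 : Wk.dg I n (Sum.inl s) = 1 := rfl
      rw [h7, Int.cast_one, one_smul, map_mul, ev_gn, h4, ev_tmul, evP_apply, ← Algebra.commutes,
        ← Algebra.smul_def, mul_smul_comm, h5]
    have h8 : ev η (x ⊗ₜ[ℂ] q : Wk I n) =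
        (MvPolynomial.aeval (fun _ => (0 : ℂ)) q) • evL η x := by
      rw [ev_tmul, evP_apply, ← Algebra.commutes, ← Algebra.smul_def]
    rw [h6, h8, cmp_csmul, cmp_csmul, cmp_evL, smul_comm]

/-- The evaluation preserves the degrees. -/
theorem ev_mem (η : Matrix I I (Ω[B⁄ℂ])) {m : ℤ} {w : Wk I n} (hw : w ∈ Wk.gr I n m) :
    ev η w ∈ omg B m := by
  have h1 : Wk.Nm I n w = (m : ℂ) • w := by
    rw [Wk.gr, LinearMap.mem_ker, LinearMap.sub_apply, sub_eq_zero] at hw
    exact hw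
  have h2 : ∀ p : ℕ, (p : ℤ) ≠ m → cmp B p (ev η w) = 0 := by
    intro p hp
    have h3 := cmp_ev η w p
    rw [h1, map_smul, cmp_csmul] at h3
    have h4 : ((m : ℂ) - (p : ℂ)) • cmp B p (ev η w) = 0 := by rw [sub_smul, h3, sub_self]
    rcases smul_eq_zero.1 h4 with h5 | h5
    · exfalso
      apply hp
      have h6 : (m : ℂ) = ((p : ℤ) : ℂ) := by
        rw [Int.cast_natCast]
        exact sub_eq_zero.1 h5
      exact (Int.cast_injective h6).symm
    · exact h5
  by_cases hm : 0 ≤ m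
  · obtain ⟨p, rfl⟩ := Int.eq_ofNat_of_zero_le hm
    have h3 : ev η w = cmp B p (ev η w) := by
      apply eq_of_cmp
      intro q
      rw [cmp_of_mem (cmp_mem p (ev η w))]
      split_ifs with h
      · rw [h]
      · exact h2 q (by exact_mod_cast h)
    rw [h3]
    exact mem_omg_nat.2 (cmp_mem p _)
  · have h3 : ev η w = 0 := by
      apply eq_of_cmp
      intro q
      rw [h2 q (by omega), map_zero]
    rw [h3]
    exact Submodule.zero_mem _

end

end Vale.Agent.P286.H987
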