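import Vale.Agent.P286.H987.EvDeg
import Vale.Agent.P286.H987.Rpn

/-!
# The flat connections `u d(u⁻¹)` and the evaluation at a point of the group
-/

namespace Vale.Agent.P286.H987

open TensorProduct Matrix Vale.Agent.P286.H710 Vale.Agent.P286.H847 Vale.Agent.P286.H44
  Vale.Agent.P286.Gen Vale.Agent.P286.H295 Vale.Agent.P286.H103

noncomputable section

set_option linter.unusedSectionVars false

variable {I : Type} [Fintype I] [DecidableEq I] {n : ℕ} {B D : Type} [CommRing B] [Algebra ℂ B]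
  [CommRing D] [Algebra ℂ D]

/-- The entries of `u dv` (with `v = u⁻¹` in the applications). -/
def mcI (U V : Matrix I I B) : Matrix I I (Ω[B⁄ℂ]) :=
  fun i j => ∑ k, U i k • KaehlerDifferential.D ℂ B (V k j)

theorem mcI_apply (U V : Matrix I I B) (i j : I) :
    mcI U V i j = ∑ k, U i k • KaehlerDifferential.D ℂ B (V k j) := rfl

theorem ι_mcI (U V : Matrix I I B) (i j : I) : (ExteriorAlgebra.ι B (mcI U V i j) : Om ℂ B) =
    ∑ k, U i k • Om.dd (V k j) := by
  rw [mcI_apply, map_sum]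
  exact Finset.sum_congr rfl fun k _ => map_smul _ _ _

/-- The differential of the inverse matrix. -/
theorem D_inv {U V : Matrix I I B} (h1 : U * V = 1) (h2 : V * U = 1) (i j : I) :
    KaehlerDifferential.D ℂ B (U i j) = -∑ c, U c j • mcI U V i c := by
  have h3 : ∀ c, ∑ k, V k c • KaehlerDifferential.D ℂ B (U i k) = -mcI U V i c := by
    intro c
    have h4 : KaehlerDifferential.D ℂ B (∑ k, U i k * V k c) = 0 := by
      rw [← Matrix.mul_apply, h1, Matrix.one_apply]
      split_ifs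
      · rw [Derivation.map_one_eq_zero]
      · rw [map_zero]
    rw [map_sum] at h4
    rw [mcI_apply, eq_neg_iff_add_eq_zero, ← h4, ← Finset.sum_add_distrib]
    refine Finset.sum_congr rfl fun k _ => ?_
    rw [Derivation.leibniz, add_comm]
  have h6 : ∑ c, U c j • ∑ k, V k c • KaehlerDifferential.D ℂ B (U i k) =
      KaehlerDifferential.D ℂ B (U i j) := by
    have h7 : ∀ c ∈ Finset.univ, U c j • ∑ k, V k c • KaehlerDifferential.D ℂ B (U i k) =
        ∑ k, (V k c * U c j) • KaehlerDifferential.D ℂ B (U i k) := by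
      intro c _
      rw [Finset.smul_sum]
      refine Finset.sum_congr rfl fun k _ => ?_
      rw [smul_smul, mul_comm]
    rw [Finset.sum_congr rfl h7, Finset.sum_comm]
    have h8 : ∀ k ∈ Finset.univ, ∑ c, (V k c * U c j) • KaehlerDifferential.D ℂ B (U i k) =
        (1 : Matrix I I B) k j • KaehlerDifferential.D ℂ B (U i k) := by
      intro k _
      rw [← h2, Matrix.mul_apply, Finset.sum_smul]
    rw [Finset.sum_congr rfl h8, Finset.sum_eq_single j]
    · rw [Matrix.one_apply_eq, one_smul]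
    · intro k _ hk
      rw [Matrix.one_apply_ne hk, zero_smul]
    · intro h
      exact absurd (Finset.mem_univ j) h
  rw [← h6, ← Finset.sum_neg_distrib]
  refine Finset.sum_congr rfl fun c _ => ?_
  rw [h3, smul_neg]

/-- The Maurer–Cartan equation. -/
theorem isMC_mcI {U V : Matrix I I B} (h1 : U * V = 1) (h2 : V * U = 1) : IsMC (mcI U V) := by
  intro i j
  have h3 : ∀ a : I, a ∈ Finset.univ → Om.d (U i a • (Om.dd (V a j) : Om ℂ B)) =
      -∑ c, ExteriorAlgebra.ι B (mcI U V i c) * (U c a • Om.dd (V a j)) := by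
    intro a _
    have h4 : (Om.dd (U i a) : Om ℂ B) = -∑ c, U c a • ExteriorAlgebra.ι B (mcI U V i c) := by
      rw [Om.dd, D_inv h1 h2, _root_.map_neg, map_sum]
      congr 1
      exact Finset.sum_congr rfl fun c _ => map_smul _ _ _
    rw [Om.d_smul, Om.d_dd, smul_zero, zero_add, h4, neg_mul, Finset.sum_mul]
    congr 1
    refine Finset.sum_congr rfl fun c _ => ?_
    rw [smul_mul_assoc, mul_smul_comm]
  rw [ι_mcI, Om.d_sum, Finset.sum_congr rfl h3, Finset.sum_neg_distrib, Finset.sum_comm]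
  congr 1
  refine Finset.sum_congr rfl fun c _ => ?_
  rw [← Finset.mul_sum, ← ι_mcI]

/-- The pull-back of the flat connection. -/
theorem pbM_mcI (f : B →ₐ[ℂ] D) (U V : Matrix I I B) :
    pbM f (mcI U V) (mcI (U.map f) (V.map f)) := by
  intro i j
  rw [ι_mcI, ι_mcI, map_sum]
  exact Finset.sum_congr rfl fun k _ => by
    rw [Om.pb_smul, Om.pb_dd]
    rfl

/-- The gauge transformation of a flat connection: `(K U) d(V H) = K (U dV) H + K dH`. -/
theorem mcI_gauge {U V : Matrix I I B} (h1 : U * V = 1) (K H : Matrix I I B) (i j : I) :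
    mcI (K * U) (V * H) i j = ∑ k, ∑ l, (K i k * H l j) • mcI U V k l + mcI K H i j := by
  have h3 : ∀ a, KaehlerDifferential.D ℂ B ((V * H) a j) =
      ∑ l, H l j • KaehlerDifferential.D ℂ B (V a l) +
        ∑ l, V a l • KaehlerDifferential.D ℂ B (H l j) := by
    intro a
    rw [Matrix.mul_apply, map_sum, ← Finset.sum_add_distrib]
    refine Finset.sum_congr rfl fun l _ => ?_
    rw [Derivation.leibniz, add_comm]
  have h4 : mcI (K * U) (V * H) i j =
      ∑ a, (K * U) i a • ∑ l, H l j • KaehlerDifferential.D ℂ B (V a l) +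
        ∑ a, (K * U) i a • ∑ l, V a l • KaehlerDifferential.D ℂ B (H l j) := by
    rw [mcI_apply, ← Finset.sum_add_distrib]
    refine Finset.sum_congr rfl fun a _ => ?_
    rw [h3, smul_add]
  rw [h4]
  congr 1
  · have h5 : ∀ a ∈ Finset.univ, (K * U) i a • ∑ l, H l j • KaehlerDifferential.D ℂ B (V a l) =
        ∑ k, ∑ l, (K i k * H l j) • (U k a • KaehlerDifferential.D ℂ B (V a l)) := by
      intro a _
      rw [Finset.sum_comm, Finset.smul_sum]
      refine Finset.sum_congr rfl fun l _ => ?_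
      rw [Matrix.mul_apply, Finset.sum_smul]
      refine Finset.sum_congr rfl fun k _ => ?_
      rw [smul_smul, smul_smul]
      congr 1
      ring
    rw [Finset.sum_congr rfl h5, Finset.sum_comm]
    refine Finset.sum_congr rfl fun k _ => ?_
    rw [Finset.sum_comm]
    refine Finset.sum_congr rfl fun l _ => ?_
    rw [← Finset.smul_sum]
    rfl
  · have h6 : ∀ a ∈ Finset.univ, (K * U) i a • ∑ l, V a l • KaehlerDifferential.D ℂ B (H l j) =
        ∑ l, ((K * U) i a * V a l) • KaehlerDifferential.D ℂ B (H l j) := by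
      intro a _
      rw [Finset.smul_sum]
      exact Finset.sum_congr rfl fun l _ => smul_smul _ _ _
    rw [Finset.sum_congr rfl h6, Finset.sum_comm, mcI_apply]
    refine Finset.sum_congr rfl fun l _ => ?_
    rw [← Finset.sum_smul, ← Matrix.mul_apply, Matrix.mul_assoc, h1, Matrix.mul_one]

theorem mcI_one : mcI (1 : Matrix I I B) 1 = 0 := by
  ext i j
  rw [mcI_apply]
  refine Finset.sum_eq_zero fun k _ => ?_
  rw [Matrix.one_apply (i := k) (j := j)]
  split_ifs
  · rw [Derivation.map_one_eq_zero, smul_zero]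
  · rw [map_zero, smul_zero]

/-- The evaluation at the zero connection is the augmentation. -/
theorem ev_zero (w : Wk I n) :
    ev (0 : Matrix I I (Ω[B⁄ℂ])) w = algebraMap ℂ (Om ℂ B) (Wk.eps I n w) := by
  have h : ev (0 : Matrix I I (Ω[B⁄ℂ])) = (Algebra.ofId ℂ (Om ℂ B)).comp (Wk.eps I n) := by
    apply Algebra.TensorProduct.ext
    · apply ExteriorAlgebra.hom_ext
      ext a
      have h1 : evL (0 : Matrix I I (Ω[B⁄ℂ])) (ExteriorAlgebra.ι ℂ (Pi.single a 1) : Lm I n) =
          0 := by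
        rw [evL_ι]
        refine Finset.sum_eq_zero fun b _ => ?_
        have h2 : (ExteriorAlgebra.ι B (evv (0 : Matrix I I (Ω[B⁄ℂ])) b) : Om ℂ B) = 0 := by
          rcases b with b | b <;> exact map_zero _
        rw [h2, smul_zero]
      have h3 : Wk.eps I n ((ExteriorAlgebra.ι ℂ (Pi.single a 1) : Lm I n) ⊗ₜ[ℂ] (1 : Pl I)) =
          0 := by
        rw [Wk.eps, Algebra.TensorProduct.lift_tmul, map_one, mul_one,
          ExteriorAlgebra.algebraMapInv, ExteriorAlgebra.lift_ι_apply]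
        rfl
      change ev (0 : Matrix I I (Ω[B⁄ℂ]))
        ((ExteriorAlgebra.ι ℂ (Pi.single a 1) : Lm I n) ⊗ₜ[ℂ] (1 : Pl I)) =
        algebraMap ℂ (Om ℂ B) (Wk.eps I n
          ((ExteriorAlgebra.ι ℂ (Pi.single a 1) : Lm I n) ⊗ₜ[ℂ] (1 : Pl I)))
      rw [h3, ev_tmul, h1, zero_mul, map_zero]
    · apply MvPolynomial.algHom_ext
      intro s
      change ev (0 : Matrix I I (Ω[B⁄ℂ])) (Wk.inP I n (MvPolynomial.X s)) =
        algebraMap ℂ (Om ℂ B) (Wk.eps I n (Wk.inP I n (MvPolynomial.X s)))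
      rw [ev_inP]
      congr 1
      rw [Wk.inP, Algebra.TensorProduct.includeRight_apply, Wk.eps,
        Algebra.TensorProduct.lift_tmul, map_one, one_mul]
  rw [h]
  rfl

namespace Rpn

variable {N : ℕ} {Γ : Gps N} (R : Rpn Γ I)

/-- The flat connection `ρ(x) d(ρ(x)⁻¹)` of a point. -/
def mcx (x : Gr Γ B) : Matrix I I (Ω[B⁄ℂ]) := mcI (R.r x) (R.r x⁻¹)

theorem isMC_mcx (x : Gr Γ B) : IsMC (R.mcx x) := isMC_mcI (R.mul_inv x) (R.inv_mul x)

theorem pbM_mcx (f : B →ₐ[ℂ] D) (x : Gr Γ B) : pbM f (R.mcx x) (R.mcx (gm f x)) := by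
  have h := pbM_mcI f (R.r x) (R.r x⁻¹)
  rwa [← R.nat, ← R.nat, gm_inv] at h

/-- The gauge transformation of the flat connection of a point. -/
theorem mcx_mul (h x : Gr Γ B) (i j : I) : R.mcx (h * x) i j =
    ∑ k, ∑ l, (R.r h i k * R.r h⁻¹ l j) • R.mcx x k l + R.mcx h i j := by
  rw [mcx, _root_.mul_inv_rev, map_mul, map_mul, mcI_gauge (R.mul_inv x)]
  rfl

theorem mcx_one : R.mcx (1 : Gr Γ B) = 0 := by
  rw [mcx, inv_one, map_one, mcI_one]

/-- The evaluation at a point of the group: `θ ↦ ρ(x) d(ρ(x)⁻¹)`. -/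
def evx (n : ℕ) (x : Gr Γ B) : Wk I n →ₐ[ℂ] Om ℂ B := ev (R.mcx x)

theorem evx_d (x : Gr Γ B) (w : Wk I n) : R.evx n x (Wk.d I n w) = Om.d (R.evx n x w) :=
  ev_d (R.isMC_mcx x) w

theorem evx_sg (x : Gr Γ B) (w : Wk I n) : R.evx n x (Wk.sg I n w) = Om.sg (R.evx n x w) :=
  ev_sg _ w

theorem evx_mem (x : Gr Γ B) {m : ℤ} {w : Wk I n} (hw : w ∈ Wk.gr I n m) :
    R.evx n x w ∈ omg B m := ev_mem _ hw

theorem pb_evx (f : B →ₐ[ℂ] D) (x : Gr Γ B) (w : Wk I n) :
    Om.pb f (R.evx n x w) = R.evx n (gm f x) w := pb_ev (R.pbM_mcx f x) w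

theorem evx_one (w : Wk I n) : R.evx n (1 : Gr Γ B) w = algebraMap ℂ (Om ℂ B) (Wk.eps I n w) := by
  rw [evx, mcx_one, ev_zero]

/-- The values of the evaluation on `θ`. -/
theorem evx_th (x : Gr Γ B) (i j : I) : R.evx n x (Wk.th I n i j) =
    ∑ k, R.r x i k • Om.dd (R.r x⁻¹ k j) := by
  rw [evx, ev_th]
  exact ι_mcI _ _ i j

theorem evx_xi (x : Gr Γ B) (t : Fin n) : R.evx n x (Wk.xi I n t) = 0 := ev_xi _ t

theorem evx_Fm (x : Gr Γ B) (i j : I) : R.evx n x (Wk.Fm I n i j) = 0 := ev_Fm _ i j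

/-- The evaluation at the universal point of the group. -/
abbrev evu (n : ℕ) : Wk I n →ₐ[ℂ] Om ℂ (Of Γ) := R.evx n (ug Γ)

/-- Every evaluation is a pull-back of the universal one. -/
theorem pb_evu (x : Gr Γ B) (w : Wk I n) : Om.pb (hpt x) (R.evu n w) = R.evx n x w := by
  rw [evu, pb_evx, gm_hpt]

/-- The evaluation at the identity. -/
theorem pb_evu_one (w : Wk I n) : Om.pb (hpt (1 : Gr Γ B)) (R.evu n w) =
    algebraMap ℂ (Om ℂ B) (Wk.eps I n w) := by
  rw [pb_evu, evx_one]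

end Rpn

end

end Vale.Agent.P286.H987
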