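import Vale.Agent.P286.H987.Spin

/-!
# The Lie algebra of the spin group
-/

namespace Vale.Agent.P286.H987

open Matrix Polynomial Vale.Agent.P286.Gen

noncomputable section

set_option linter.unusedSectionVars false

variable {m N : ℕ} (S : CSys m N)

/-- The bivector `E_k E_l` for `k ≠ l`, and `0` for `k = l`. -/
def bv2 (k l : Fin m) : Mt N ℂ := if k = l then 0 else S.E k * S.E l

theorem exists_ne_ne (hm : 3 ≤ m) (p r : Fin m) : ∃ q, p ≠ q ∧ q ≠ r := by
  by_contra h
  push Not at h
  have h1 : (Finset.univ : Finset (Fin m)) ⊆ {p, r} := by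
    intro q _
    by_cases hq : p = q
    · rw [← hq]; exact Finset.mem_insert_self _ _
    · rw [h q hq]; exact Finset.mem_insert_of_mem (Finset.mem_singleton_self _)
  have h2 := Finset.card_le_card h1
  rw [Finset.card_univ, Fintype.card_fin] at h2
  have h3 : ({p, r} : Finset (Fin m)).card ≤ 2 := Finset.card_le_two
  omega

/-- The Lie algebra contains the bivectors. -/
theorem isLi_bv2 (hm : 3 ≤ m) (p r : Fin m) : IsLi (spin S) (bv2 S p r) := by
  unfold bv2
  split_ifs with h
  · exact IsLi.zero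
  · obtain ⟨q, hpq, hqr⟩ := exists_ne_ne hm p r
    have h1 := isLi_nl S hpq h hqr Complex.I_mul_I
    have h2 := isLi_nl S hpq h hqr (c := -Complex.I) (by rw [neg_mul_neg, Complex.I_mul_I])
    have h3 := (h1.add h2).smul (2 : ℂ)⁻¹
    have e : (2 : ℂ)⁻¹ • (nl S p q r Complex.I + nl S p q r (-Complex.I)) = S.E p * S.E r := by
      unfold nl iv
      rw [← add_mul]
      have : S.E p + Complex.I • S.E q + (S.E p + -Complex.I • S.E q) = (2 : ℂ) • S.E p := by
        rw [neg_smul, two_smul]; abel
      rw [this, smul_mul_assoc, smul_smul, inv_mul_cancel₀ two_ne_zero, one_smul]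
    rwa [e] at h3

section Coeff

variable [NeZero N] {A B : Type} [CommRing A] [Algebra ℂ A] [CommRing B] [Algebra ℂ B]

/-- The differential of the vector representation. -/
def drho (X : Mt N A) : Mt m A := Matrix.of fun k j =>
  algebraMap ℂ A (N : ℂ)⁻¹ * trace (cm A (S.E k) * (X * cm A (S.E j) - cm A (S.E j) * X))

theorem drho_apply (X : Mt N A) (k j : Fin m) : drho S X k j =
  algebraMap ℂ A (N : ℂ)⁻¹ * trace (cm A (S.E k) * (X * cm A (S.E j) - cm A (S.E j) * X)) := rfl

theorem drho_add (X Y : Mt N A) : drho S (X + Y) = drho S X + drho S Y := by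
  ext k j
  rw [Matrix.add_apply, drho_apply, drho_apply, drho_apply, ← mul_add, ← trace_add, ← mul_add]
  congr 3
  rw [add_mul, mul_add]
  abel

theorem drho_smul (a : A) (X : Mt N A) : drho S (a • X) = a • drho S X := by
  ext k j
  rw [Matrix.smul_apply, drho_apply, drho_apply, smul_mul_assoc, mul_smul_comm, ← smul_sub,
    mul_smul_comm, trace_smul, smul_eq_mul, smul_eq_mul]
  ring

theorem drho_anti (X : Mt N A) (k j : Fin m) : drho S X k j = -drho S X j k := by
  have h : ∀ k j : Fin m, trace (cm A (S.E k) * (X * cm A (S.E j))) =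
      trace (cm A (S.E j) * (cm A (S.E k) * X)) := by
    intro k j
    rw [← mul_assoc, trace_mul_comm]
  rw [drho_apply, drho_apply, ← mul_neg]
  congr 1
  rw [mul_sub, mul_sub, trace_sub, trace_sub, neg_sub, h k j, h j k]

theorem expand_of {y : Mt N A} (h : ∃ a : Fin m → A, y = ∑ k, a k • cm A (S.E k)) :
    y = ∑ k, (algebraMap ℂ A (N : ℂ)⁻¹ * trace (cm A (S.E k) * y)) • cm A (S.E k) := by
  obtain ⟨a, ha⟩ := h
  conv_lhs => rw [ha]
  refine Finset.sum_congr rfl fun k _ => ?_
  rw [ha, coef]

theorem cm_dual (X : Mt N ℂ) : cm (DualNumber A) X = du (cm A X) 0 := by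
  ext i j
  · rw [du_apply]
    simp [cm, TrivSqZeroExt.algebraMap_eq_inl']
  · rw [du_apply]
    simp [cm, TrivSqZeroExt.algebraMap_eq_inl']

/-- The elements of the Lie algebra preserve the space of the gamma matrices. -/
theorem lie_E {X : Mt N A} (hX : IsLi (spin S) X) (j : Fin m) :
    X * cm A (S.E j) - cm A (S.E j) * X = ∑ k, drho S X k j • cm A (S.E k) := by
  apply expand_of
  have h1 := conj_E S (x := du 1 X) hX j
  rw [adj_du_one X hX, cm_dual, du_mul, du_mul] at h1
  refine ⟨fun k => TrivSqZeroExt.snd (rho S (du 1 X) k j), ?_⟩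
  ext a b
  have h2 := congrArg TrivSqZeroExt.snd (congrFun (congrFun h1 a) b)
  rw [du_apply, TrivSqZeroExt.snd_add, TrivSqZeroExt.snd_inl, TrivSqZeroExt.snd_inr, zero_add,
    Matrix.sum_apply, TrivSqZeroExt.snd_sum] at h2
  rw [Matrix.sum_apply]
  have h3 : ∀ k : Fin m, TrivSqZeroExt.snd ((rho S (du 1 X) k j • cm (DualNumber A) (S.E k)) a b) =
      (TrivSqZeroExt.snd (rho S (du 1 X) k j) • cm A (S.E k)) a b := by
    intro k
    rw [Matrix.smul_apply, Matrix.smul_apply, cm_dual, du_apply, smul_eq_mul,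
      TrivSqZeroExt.snd_mul]
    simp [mul_comm]
  rw [Finset.sum_congr rfl fun k _ => h3 k] at h2
  rw [← h2]
  simp [Matrix.mul_neg, sub_eq_add_neg, add_comm]

theorem map_drho (f : A →ₐ[ℂ] B) (X : Mt N A) : (drho S X).map f = drho S (X.map f) := by
  ext k j
  rw [Matrix.map_apply, drho_apply, drho_apply, map_mul, AlgHom.commutes]
  congr 1
  have h1 : f (trace (cm A (S.E k) * (X * cm A (S.E j) - cm A (S.E j) * X))) =
      trace ((cm A (S.E k) * (X * cm A (S.E j) - cm A (S.E j) * X)).map f) := by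
    rw [trace, trace, map_sum]
    rfl
  rw [h1, Matrix.map_mul, map_sub' f, Matrix.map_mul, Matrix.map_mul, cm_map', cm_map']

/-- The element of the spin Lie algebra with a given action on the gamma matrices. -/
def ofA (a : Mt m A) : Mt N A :=
  algebraMap ℂ A (4 : ℂ)⁻¹ • ∑ k, ∑ l, a k l • cm A (bv2 S k l)

theorem bv2_E (k l j : Fin m) : bv2 S k l * S.E j - S.E j * bv2 S k l =
    (2 * (if l = j then (1 : ℂ) else 0)) • S.E k - (2 * (if k = j then (1 : ℂ) else 0)) • S.E l := by
  unfold bv2
  by_cases h : k = l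
  · subst h
    rw [if_pos rfl, zero_mul, mul_zero, sub_self, sub_self]
  · rw [if_neg h]
    have h1 := S.rel l j
    have h2 := S.rel k j
    have e1 : S.E l * S.E j = (2 * (if l = j then (1 : ℂ) else 0)) • (1 : Mt N ℂ) -
      S.E j * S.E l := by rw [← h1]; abel
    have e2 : S.E j * S.E k = (2 * (if k = j then (1 : ℂ) else 0)) • (1 : Mt N ℂ) -
      S.E k * S.E j := by rw [← h2]; abel
    calc S.E k * S.E l * S.E j - S.E j * (S.E k * S.E l) =
          S.E k * (S.E l * S.E j) - (S.E j * S.E k) * S.E l := by noncomm_ring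
      _ = _ := by
          rw [e1, e2, mul_sub, sub_mul, mul_smul_comm, mul_one, smul_mul_assoc, one_mul]
          noncomm_ring

/-- The matrices `ofA a` act by `a`, if `a` is antisymmetric. -/
theorem ofA_E {a : Mt m A} (ha : ∀ k l, a k l = -a l k) (j : Fin m) :
    ofA S a * cm A (S.E j) - cm A (S.E j) * ofA S a = ∑ k, a k j • cm A (S.E k) := by
  have h1 : ∀ k l : Fin m, cm A (bv2 S k l) * cm A (S.E j) - cm A (S.E j) * cm A (bv2 S k l) =
      (if l = j then (2 : A) else 0) • cm A (S.E k) - (if k = j then (2 : A) else 0) •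
        cm A (S.E l) := by
    intro k l
    rw [← cm_mul, ← cm_mul, ← cm_sub, bv2_E, cm_sub, cm_smul, cm_smul]
    congr 1
    · split_ifs
      · rw [mul_one, ← algebraMap_smul A (2 : ℂ), map_ofNat]
      · rw [mul_zero, zero_smul, zero_smul]
    · split_ifs
      · rw [mul_one, ← algebraMap_smul A (2 : ℂ), map_ofNat]
      · rw [mul_zero, zero_smul, zero_smul]
  unfold ofA
  rw [smul_mul_assoc, mul_smul_comm, ← smul_sub, Finset.sum_mul, Finset.mul_sum,
    ← Finset.sum_sub_distrib]
  have h2 : ∀ k : Fin m, (∑ l, a k l • cm A (bv2 S k l)) * cm A (S.E j) -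
      cm A (S.E j) * (∑ l, a k l • cm A (bv2 S k l)) =
      (2 * a k j) • cm A (S.E k) - (if k = j then (2 : A) else 0) • ∑ l, a k l • cm A (S.E l) := by
    intro k
    rw [Finset.sum_mul, Finset.mul_sum, ← Finset.sum_sub_distrib]
    have h3 : ∀ l : Fin m, a k l • cm A (bv2 S k l) * cm A (S.E j) -
        cm A (S.E j) * a k l • cm A (bv2 S k l) =
        (if l = j then (2 * a k l) else 0) • cm A (S.E k) -
          (if k = j then (2 : A) else 0) • a k l • cm A (S.E l) := by
      intro l
      rw [smul_mul_assoc, mul_smul_comm, ← smul_sub, h1, smul_sub, smul_smul, smul_smul, smul_smul]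
      congr 1
      · split_ifs
        · rw [mul_comm]
        · rw [mul_zero]
      · rw [mul_comm]
    rw [Finset.sum_congr rfl fun l _ => h3 l, Finset.sum_sub_distrib, ← Finset.sum_smul,
      Finset.sum_ite_eq' Finset.univ j, if_pos (Finset.mem_univ j), ← Finset.smul_sum]
  rw [Finset.sum_congr rfl fun k _ => h2 k, Finset.sum_sub_distrib]
  have h4 : ∑ k, (if k = j then (2 : A) else 0) • ∑ l, a k l • cm A (S.E l) =
      -∑ k, (2 * a k j) • cm A (S.E k) := by
    rw [Finset.sum_eq_single j]
    · rw [if_pos rfl, Finset.smul_sum, ← Finset.sum_neg_distrib]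
      refine Finset.sum_congr rfl fun l _ => ?_
      rw [ha j l, smul_smul, mul_neg, neg_smul]
    · intro k _ hk
      rw [if_neg hk, zero_smul]
    · intro h
      exact absurd (Finset.mem_univ j) h
  rw [h4, sub_neg_eq_add, ← Finset.sum_add_distrib, Finset.smul_sum]
  refine Finset.sum_congr rfl fun k _ => ?_
  rw [← add_smul, smul_smul]
  congr 1
  have h5 : algebraMap ℂ A (4 : ℂ)⁻¹ * 4 = 1 := by
    rw [← map_ofNat (algebraMap ℂ A) 4, ← map_mul, inv_mul_cancel₀ (by norm_num), map_one]
  linear_combination (a k j) * h5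

theorem drho_ofA {a : Mt m A} (ha : ∀ k l, a k l = -a l k) : drho S (ofA S a) = a := by
  ext k j
  rw [drho_apply, ofA_E S ha, coef]

theorem isLi_ofA (hm : 3 ≤ m) (a : Mt m A) : IsLi (spin S) (ofA S a) := by
  unfold ofA
  apply IsLi.smul
  refine IsLi.sum _ fun k _ => IsLi.sum _ fun l _ => IsLi.smul (isLi_cm (isLi_bv2 S hm k l)) _

theorem trace_ofA (a : Mt m A) : trace (ofA S a) = 0 := by
  unfold ofA
  rw [trace_smul, trace_sum]
  simp only [trace_sum, trace_smul]
  have h : ∀ k l : Fin m, trace (cm A (bv2 S k l)) = 0 := by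
    intro k l
    rw [cm_trace]
    unfold bv2
    split_ifs with hkl
    · rw [trace_zero, map_zero]
    · rw [S.trace_mul hkl, map_zero]
  simp only [h, smul_zero, Finset.sum_const_zero]

theorem trace_isLi {X : Mt N A} (hX : IsLi (spin S) X) : trace X = 0 := by
  have h1 : (du 1 X).det = 1 := IsPt.det hX
  have h2 : du 1 X = 1 + (TrivSqZeroExt.inr (1 : A) : DualNumber A) • X.map (inlA A) := by
    ext i j
    · rw [du_apply, Matrix.add_apply, Matrix.smul_apply, Matrix.one_apply, Matrix.one_apply,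
        Matrix.map_apply, smul_eq_mul]
      change _ = TrivSqZeroExt.fst (_ + TrivSqZeroExt.inr (1 : A) * TrivSqZeroExt.inl (X i j))
      split_ifs <;> simp
    · rw [du_apply, Matrix.add_apply, Matrix.smul_apply, Matrix.one_apply, Matrix.one_apply,
        Matrix.map_apply, smul_eq_mul]
      change _ = TrivSqZeroExt.snd (_ + TrivSqZeroExt.inr (1 : A) * TrivSqZeroExt.inl (X i j))
      split_ifs <;> simp
  rw [h2, Matrix.det_one_add_smul] at h1
  have h3 : (TrivSqZeroExt.inr (1 : A) : DualNumber A) ^ 2 = 0 := by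
    rw [pow_two, TrivSqZeroExt.inr_mul_inr]
  rw [h3, mul_zero, add_zero] at h1
  have h4 : trace (X.map (inlA A)) = TrivSqZeroExt.inl (trace X) := by
    rw [trace, trace]
    exact (map_sum (inlA A) _ _).symm
  rw [h4] at h1
  have h5 := congrArg TrivSqZeroExt.snd h1
  rw [TrivSqZeroExt.snd_add, TrivSqZeroExt.snd_mul] at h5
  simpa using h5

/-- The Lie algebra of the spin group. -/
theorem ofA_drho {X : Mt N ℂ} (hX : IsLi (spin S) X) : ofA S (drho S X) = X := by
  have h1 : ∀ j, (X - ofA S (drho S X)) * S.E j = S.E j * (X - ofA S (drho S X)) := by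
    intro j
    have h2 := lie_E S hX j
    have h3 := ofA_E S (drho_anti S X) j
    rw [← h2] at h3
    simp only [cm_self] at h3
    rw [sub_mul, mul_sub]
    have h4 : X * S.E j = ofA S (drho S X) * S.E j - S.E j * ofA S (drho S X) + S.E j * X := by
      rw [h3]; abel
    rw [h4]
    abel
  obtain ⟨c, hc⟩ := S.irr _ h1
  have h2 := congrArg trace hc
  rw [trace_sub, trace_isLi S hX, trace_ofA, sub_zero, trace_smul, trace_one, Fintype.card_fin,
    smul_eq_mul] at h2
  have h3 : c = 0 := (mul_eq_zero.1 h2.symm).resolve_right (trace_one_ne (N := N))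
  rw [h3, zero_smul, sub_eq_zero] at hc
  exact hc.symm

end Coeff

end

end Vale.Agent.P286.H987
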