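import Vale.Agent.P286.H987.Cliff

/-!
# The spin group of a Clifford system and its vector representation
-/

namespace Vale.Agent.P286.H987

open Matrix Polynomial Vale.Agent.P286.Gen

noncomputable section

set_option linter.unusedSectionVars false

variable {m N : ℕ} (S : CSys m N)

/-- The root elements `1 + s (E_p + c E_q) E_r`. -/
def gens : Set (SpecialLinearGroup (Fin N) ℂ) :=
  {x | ∃ (p q r : Fin m) (c s : ℂ), p ≠ q ∧ p ≠ r ∧ q ≠ r ∧ c * c = -1 ∧
    x.1 = 1 + s • nl S p q r c}

/-- The spin group. -/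
def spin : Gps N := Subgroup.closure (gens S)

theorem exists_gen {p q r : Fin m} (hpq : p ≠ q) (hp : p ≠ r) (hq : q ≠ r) {c : ℂ}
    (hc : c * c = -1) (s : ℂ) : ∃ g ∈ spin S, g.1 = 1 + s • nl S p q r c :=
  ⟨⟨1 + s • nl S p q r c, det_one_add S hpq hp hq hc s⟩,
    Subgroup.subset_closure ⟨p, q, r, c, s, hpq, hp, hq, hc, rfl⟩, rfl⟩

theorem joined_spin : ∀ γ ∈ spin S, Joined (spin S) γ := by
  apply joined_closure
  rintro x ⟨p, q, r, c, s, hpq, hp, hq, hc, hx⟩
  exact joined_of_line (fun t => exists_gen S hpq hp hq hc t) hx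

/-- The spin group is irreducible. -/
theorem prime_spin : (vanI (spin S)).IsPrime := prime_of_joined (joined_spin S)

/-- The Lie algebra contains the matrices `(E_p + c E_q) E_r`. -/
theorem isLi_nl {p q r : Fin m} (hpq : p ≠ q) (hp : p ≠ r) (hq : q ≠ r) {c : ℂ}
    (hc : c * c = -1) : IsLi (spin S) (nl S p q r c) :=
  isLi_of_line (fun t => exists_gen S hpq hp hq hc t)

/-- The space spanned by the gamma matrices. -/
def Vs : Submodule ℂ (Mt N ℂ) := Submodule.span ℂ (Set.range S.E)

theorem E_mem (j : Fin m) : S.E j ∈ Vs S := Submodule.subset_span ⟨j, rfl⟩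

theorem iv_mem (p q : Fin m) (c : ℂ) : iv S p q c ∈ Vs S :=
  (Vs S).add_mem (E_mem S p) ((Vs S).smul_mem c (E_mem S q))

theorem rel_mem {y : Mt N ℂ} (hy : y ∈ Vs S) (k : Fin m) :
    ∃ a : ℂ, y * S.E k + S.E k * y = (2 * a) • (1 : Mt N ℂ) := by
  unfold Vs at hy
  induction hy using Submodule.span_induction with
  | mem x hx =>
    obtain ⟨j, rfl⟩ := hx
    exact ⟨_, S.rel j k⟩
  | zero => exact ⟨0, by rw [zero_mul, mul_zero, add_zero, mul_zero, zero_smul]⟩
  | add x y _ _ hx hy =>
    obtain ⟨a, ha⟩ := hx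
    obtain ⟨b, hb⟩ := hy
    refine ⟨a + b, ?_⟩
    rw [mul_add 2 a b, add_smul, ← ha, ← hb, add_mul, mul_add]
    abel
  | smul c x _ hx =>
    obtain ⟨a, ha⟩ := hx
    refine ⟨c * a, ?_⟩
    rw [show 2 * (c * a) = c * (2 * a) by ring, ← smul_smul, ← ha, smul_add, smul_mul_assoc,
      mul_smul_comm]

theorem rel_iv {y : Mt N ℂ} (hy : y ∈ Vs S) (p q : Fin m) (c : ℂ) :
    ∃ a : ℂ, y * iv S p q c + iv S p q c * y = (2 * a) • (1 : Mt N ℂ) := by
  obtain ⟨a, ha⟩ := rel_mem S hy p
  obtain ⟨b, hb⟩ := rel_mem S hy q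
  refine ⟨a + c * b, ?_⟩
  rw [mul_add 2 a (c * b), add_smul, ← ha, show 2 * (c * b) = c * (2 * b) by ring, ← smul_smul,
    ← hb]
  simp only [iv, mul_add, add_mul, mul_smul_comm, smul_mul_assoc, smul_add]
  abel

theorem adjugate_line {p q r : Fin m} (hpq : p ≠ q) (hp : p ≠ r) (hq : q ≠ r) {c : ℂ}
    (hc : c * c = -1) (s : ℂ) :
    (1 + s • nl S p q r c).adjugate = 1 - s • nl S p q r c := by
  have h1 : (1 + s • nl S p q r c) * (1 - s • nl S p q r c) = 1 := by
    have h := one_add_mul S hpq hp hq hc s (-s)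
    rwa [add_neg_cancel, zero_smul, add_zero, neg_smul, ← sub_eq_add_neg] at h
  have h2 := det_one_add S hpq hp hq hc s
  calc (1 + s • nl S p q r c).adjugate = (1 + s • nl S p q r c).adjugate *
        ((1 + s • nl S p q r c) * (1 - s • nl S p q r c)) := by rw [h1, mul_one]
    _ = _ := by rw [← mul_assoc, adjugate_mul, h2, one_smul, one_mul]

theorem conj_line_mem {p q r : Fin m} (hpq : p ≠ q) (hp : p ≠ r) (hq : q ≠ r) {c : ℂ}
    (hc : c * c = -1) (s : ℂ) {y : Mt N ℂ} (hy : y ∈ Vs S) :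
    (1 + s • nl S p q r c) * y * (1 + s • nl S p q r c).adjugate ∈ Vs S := by
  rw [adjugate_line S hpq hp hq hc]
  obtain ⟨a, ha⟩ := rel_iv S hy p q c
  obtain ⟨b, hb⟩ := rel_mem S hy r
  unfold nl
  rw [conj_vw (iv_sq S hpq hc) (S.sq r) (iv_ac S hp hq c) ha hb s]
  refine (Vs S).sub_mem ((Vs S).add_mem hy ((Vs S).smul_mem _ ((Vs S).sub_mem
    ((Vs S).smul_mem _ (iv_mem S p q c)) ((Vs S).smul_mem _ (E_mem S r)))))
    ((Vs S).smul_mem _ (iv_mem S p q c))

/-- The spin group preserves the space of the gamma matrices. -/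
theorem conj_mem (γ : SpecialLinearGroup (Fin N) ℂ) (hγ : γ ∈ spin S) :
    ∀ y ∈ Vs S, γ.1 * y * γ.1.adjugate ∈ Vs S ∧ γ.1.adjugate * y * γ.1 ∈ Vs S := by
  unfold spin at hγ
  induction hγ using Subgroup.closure_induction with
  | mem x hx =>
    obtain ⟨p, q, r, c, s, hpq, hp, hq, hc, hx⟩ := hx
    intro y hy
    rw [hx]
    refine ⟨conj_line_mem S hpq hp hq hc s hy, ?_⟩
    have h1 := conj_line_mem S hpq hp hq hc (-s) hy
    rw [adjugate_line S hpq hp hq hc] at h1 ⊢
    rw [neg_smul, sub_neg_eq_add, ← sub_eq_add_neg] at h1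
    exact h1
  | one =>
    intro y hy
    change (1 : Mt N ℂ) * y * (1 : Mt N ℂ).adjugate ∈ Vs S ∧
      (1 : Mt N ℂ).adjugate * y * (1 : Mt N ℂ) ∈ Vs S
    rw [adjugate_one, one_mul, mul_one]
    exact ⟨hy, hy⟩
  | mul g h _ _ hg hh =>
    intro y hy
    change (g.1 * h.1) * y * (g.1 * h.1).adjugate ∈ Vs S ∧
      (g.1 * h.1).adjugate * y * (g.1 * h.1) ∈ Vs S
    rw [adjugate_mul_distrib]
    refine ⟨?_, ?_⟩
    · have h1 := (hg _ (hh y hy).1).1
      simpa only [mul_assoc] using h1
    · have h1 := (hh _ (hg y hy).2).2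
      simpa only [mul_assoc] using h1
  | inv g _ hg =>
    intro y hy
    have h1 : (g⁻¹).1 = g.1.adjugate := rfl
    have h2 : (g⁻¹).1.adjugate = g.1 := by
      have h3 : ((g⁻¹)⁻¹).1 = (g⁻¹).1.adjugate := rfl
      rw [← h3, inv_inv]
    rw [h2, h1]
    exact ⟨(hg y hy).2, (hg y hy).1⟩

section Coeff

variable [NeZero N]

theorem trace_one_ne : (N : ℂ) ≠ 0 := Nat.cast_ne_zero.2 (NeZero.ne N)

theorem trace_EE (k j : Fin m) :
    trace (S.E k * S.E j) = if k = j then (N : ℂ) else 0 := by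
  split_ifs with h
  · subst h
    rw [S.sq, trace_one, Fintype.card_fin]
  · exact S.trace_mul h

/-- The expansion in gamma matrices. -/
theorem expand {y : Mt N ℂ} (hy : y ∈ Vs S) :
    y = ∑ k, ((N : ℂ)⁻¹ * trace (S.E k * y)) • S.E k := by
  unfold Vs at hy
  induction hy using Submodule.span_induction with
  | mem x hx =>
    obtain ⟨j, rfl⟩ := hx
    simp only [trace_EE, mul_ite, mul_zero, ite_smul, zero_smul]
    rw [Finset.sum_ite_eq' Finset.univ j, if_pos (Finset.mem_univ j),
      inv_mul_cancel₀ (trace_one_ne (N := N)), one_smul]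
  | zero => simp
  | add x y _ _ hx hy =>
    conv_lhs => rw [hx, hy]
    rw [← Finset.sum_add_distrib]
    refine Finset.sum_congr rfl fun k _ => ?_
    rw [mul_add (S.E k), trace_add, mul_add, add_smul]
  | smul c x _ hx =>
    conv_lhs => rw [hx]
    rw [Finset.smul_sum]
    refine Finset.sum_congr rfl fun k _ => ?_
    rw [mul_smul_comm, trace_smul, smul_smul, smul_eq_mul]
    congr 1
    ring

variable {A B : Type} [CommRing A] [Algebra ℂ A] [CommRing B] [Algebra ℂ B]

/-- The matrix of `y ↦ x y x⁻¹` on the space spanned by the gamma matrices. -/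
def rho (x : Mt N A) : Mt m A := Matrix.of fun k j =>
  algebraMap ℂ A (N : ℂ)⁻¹ * trace (cm A (S.E k) * (x * cm A (S.E j) * x.adjugate))

theorem rho_apply (x : Mt N A) (k j : Fin m) : rho S x k j =
  algebraMap ℂ A (N : ℂ)⁻¹ * trace (cm A (S.E k) * (x * cm A (S.E j) * x.adjugate)) := rfl

theorem cm_map' (f : A →ₐ[ℂ] B) (x : Mt N ℂ) : (cm A x).map f = cm B x := by
  ext i j
  simp [cm]

theorem rho_map (f : A →ₐ[ℂ] B) (x : Mt N A) : (rho S x).map f = rho S (x.map f) := by
  ext k j
  rw [Matrix.map_apply, rho_apply, rho_apply, map_mul, AlgHom.commutes]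
  congr 1
  have h1 : f (trace (cm A (S.E k) * (x * cm A (S.E j) * x.adjugate))) =
      trace ((cm A (S.E k) * (x * cm A (S.E j) * x.adjugate)).map f) := by
    rw [trace, trace, map_sum]
    rfl
  rw [h1, Matrix.map_mul, Matrix.map_mul, Matrix.map_mul, cm_map', cm_map']
  congr 3
  exact AlgHom.map_adjugate f x

/-- An identity of polynomial maps to matrices holds for all points of `G`, if it holds on `Γ`. -/
theorem of_gamma {Γ : Gps N} {a b : Type} {Φ : ∀ (A : Type) [CommRing A] [Algebra ℂ A],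
    Mt N A → Matrix a b A}
    (hΦ : ∀ {A B : Type} [CommRing A] [Algebra ℂ A] [CommRing B] [Algebra ℂ B] (f : A →ₐ[ℂ] B)
      (x : Mt N A), (Φ A x).map f = Φ B (x.map f))
    (h : ∀ γ ∈ Γ, Φ ℂ γ.1 = 0) {x : Mt N A} (hx : IsPt Γ x) : Φ A x = 0 := by
  ext i j
  have h1 : ∀ {B : Type} [CommRing B] [Algebra ℂ B] (y : Mt N B),
      ev y (Φ (Pl N) (gen N ℂ) i j) = Φ B y i j := by
    intro B _ _ y
    have h2 := hΦ (ev y) (gen N ℂ)
    have h3 : (gen N ℂ).map (ev y) = y := by
      ext k l
      simp [gen, ev]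
    rw [h3] at h2
    exact congrFun (congrFun h2 i) j
  rw [← h1 x, Matrix.zero_apply]
  apply hx
  intro γ hγ
  rw [h1, h γ hγ, Matrix.zero_apply]

theorem map_sub' (f : A →ₐ[ℂ] B) {a b : Type} (x y : Matrix a b A) :
    (x - y).map f = x.map f - y.map f := by
  ext i j
  simp

theorem map_mul3 (f : A →ₐ[ℂ] B) (x : Mt N A) (e : Mt N ℂ) :
    (x * cm A e * x.adjugate).map f = x.map f * cm B e * (x.map f).adjugate := by
  rw [Matrix.map_mul, Matrix.map_mul, cm_map']
  congr 1
  exact AlgHom.map_adjugate f x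

theorem map_sumE (f : A →ₐ[ℂ] B) (a : Fin m → A) :
    (∑ k, a k • cm A (S.E k)).map f = ∑ k, f (a k) • cm B (S.E k) := by
  ext i j
  simp [Matrix.sum_apply, cm]

theorem cm_self (x : Mt N ℂ) : cm ℂ x = x := by
  ext i j
  rfl

/-- The points of the spin group preserve the space of the gamma matrices. -/
theorem conj_E {x : Mt N A} (hx : IsPt (spin S) x) (j : Fin m) :
    x * cm A (S.E j) * x.adjugate = ∑ k, rho S x k j • cm A (S.E k) := by
  rw [← sub_eq_zero]
  refine of_gamma (Γ := spin S) (Φ := fun A _ _ x =>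
    x * cm A (S.E j) * x.adjugate - ∑ k, rho S x k j • cm A (S.E k)) ?_ ?_ hx
  · intro A B _ _ _ _ f x
    rw [map_sub', map_mul3, map_sumE, ← rho_map]
    rfl
  · intro γ hγ
    rw [sub_eq_zero]
    have h1 := expand S (conj_mem S γ hγ _ (E_mem S j)).1
    simp only [rho_apply, cm_self]
    exact h1

theorem rho_one : rho S (1 : Mt N A) = 1 := by
  ext k j
  rw [rho_apply, adjugate_one, one_mul, mul_one, ← cm_mul, cm_trace, ← map_mul, trace_EE,
    Matrix.one_apply]
  split_ifs with h
  · rw [inv_mul_cancel₀ (trace_one_ne (N := N)), map_one]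
  · rw [mul_zero, map_zero]

/-- The coefficients of a combination of the gamma matrices. -/
theorem coef (a : Fin m → A) (k : Fin m) :
    algebraMap ℂ A (N : ℂ)⁻¹ * trace (cm A (S.E k) * ∑ l, a l • cm A (S.E l)) = a k := by
  rw [Finset.mul_sum, trace_sum, Finset.mul_sum, Finset.sum_eq_single k]
  · rw [mul_smul_comm, trace_smul, ← cm_mul, cm_trace, trace_EE, if_pos rfl, smul_eq_mul,
      mul_left_comm, ← map_mul, inv_mul_cancel₀ (trace_one_ne (N := N)), map_one, mul_one]
  · intro l _ hl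
    rw [mul_smul_comm, trace_smul, ← cm_mul, cm_trace, trace_EE, if_neg (Ne.symm hl), map_zero,
      smul_zero, mul_zero]
  · intro h
    exact absurd (Finset.mem_univ k) h

theorem rho_mul {x y : Mt N A} (hx : IsPt (spin S) x) (hy : IsPt (spin S) y) :
    rho S (x * y) = rho S x * rho S y := by
  ext k j
  rw [rho_apply, adjugate_mul_distrib]
  have h1 : x * y * cm A (S.E j) * (y.adjugate * x.adjugate) =
      ∑ l, (rho S x * rho S y) l j • cm A (S.E l) := by
    calc x * y * cm A (S.E j) * (y.adjugate * x.adjugate) =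
          x * (y * cm A (S.E j) * y.adjugate) * x.adjugate := by simp only [mul_assoc]
      _ = ∑ k, rho S y k j • (x * cm A (S.E k) * x.adjugate) := by
          rw [conj_E S hy, Finset.mul_sum, Finset.sum_mul]
          refine Finset.sum_congr rfl fun k _ => ?_
          rw [mul_smul_comm, smul_mul_assoc]
      _ = ∑ k, ∑ l, (rho S x l k * rho S y k j) • cm A (S.E l) := by
          refine Finset.sum_congr rfl fun k _ => ?_
          rw [conj_E S hx, Finset.smul_sum]
          refine Finset.sum_congr rfl fun l _ => ?_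
          rw [smul_smul, mul_comm]
      _ = _ := by
          rw [Finset.sum_comm]
          refine Finset.sum_congr rfl fun l _ => ?_
          rw [← Finset.sum_smul, Matrix.mul_apply]
  rw [h1, coef]

/-- The vector representation is orthogonal. -/
theorem rho_orth {x : Mt N A} (hx : IsPt (spin S) x) : (rho S x).transpose * rho S x = 1 := by
  ext j k
  have h1 : (x * cm A (S.E j) * x.adjugate) * (x * cm A (S.E k) * x.adjugate) +
      (x * cm A (S.E k) * x.adjugate) * (x * cm A (S.E j) * x.adjugate) =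
      cm A ((2 * (if j = k then (1 : ℂ) else 0)) • (1 : Mt N ℂ)) := by
    have h := hx.adj_mul
    have h' := hx.mul_adj
    have e : ∀ u v : Mt N A, x * u * x.adjugate * (x * v * x.adjugate) =
        x * (u * v) * x.adjugate := by
      intro u v
      calc x * u * x.adjugate * (x * v * x.adjugate) = x * u * (x.adjugate * x) * v * x.adjugate := by
            simp only [mul_assoc]
        _ = _ := by rw [h, mul_one]; simp only [mul_assoc]
    rw [e, e, ← add_mul, ← mul_add, ← cm_mul, ← cm_mul, ← cm_add, S.rel, cm_smul, cm_one,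
      mul_smul_comm, mul_one, smul_mul_assoc, h']
  have h2 : ∀ a b : Fin m → A, (∑ l, a l • cm A (S.E l)) * (∑ l, b l • cm A (S.E l)) +
      (∑ l, b l • cm A (S.E l)) * (∑ l, a l • cm A (S.E l)) =
      (2 * ∑ l, a l * b l) • (1 : Mt N A) := by
    intro a b
    have h3 : (∑ l, b l • cm A (S.E l)) * (∑ l, a l • cm A (S.E l)) =
        ∑ l, ∑ l', (a l * b l') • cm A (S.E l' * S.E l) := by
      rw [Finset.sum_mul, Finset.sum_comm]
      refine Finset.sum_congr rfl fun l _ => ?_
      rw [Finset.mul_sum]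
      refine Finset.sum_congr rfl fun l' _ => ?_
      rw [smul_mul_assoc, mul_smul_comm, smul_smul, cm_mul, mul_comm]
    have h4 : (∑ l, a l • cm A (S.E l)) * (∑ l, b l • cm A (S.E l)) =
        ∑ l, ∑ l', (a l * b l') • cm A (S.E l * S.E l') := by
      rw [Finset.sum_mul]
      refine Finset.sum_congr rfl fun l _ => ?_
      rw [Finset.mul_sum]
      refine Finset.sum_congr rfl fun l' _ => ?_
      rw [smul_mul_assoc, mul_smul_comm, smul_smul, cm_mul]
    rw [h3, h4, ← Finset.sum_add_distrib]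
    rw [Finset.mul_sum, Finset.sum_smul]
    refine Finset.sum_congr rfl fun l _ => ?_
    rw [← Finset.sum_add_distrib, Finset.sum_eq_single l]
    · rw [← smul_add, ← cm_add, S.rel, if_pos rfl, mul_one, cm_smul, cm_one, two_smul, ← two_smul A,
        smul_smul, mul_comm]
    · intro l' _ hl
      rw [← smul_add, ← cm_add, S.rel, if_neg (Ne.symm hl), mul_zero, zero_smul, cm_zero, smul_zero]
    · intro h
      exact absurd (Finset.mem_univ l) h
  rw [conj_E S hx, conj_E S hx, h2, cm_smul, cm_one] at h1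
  have h5 := congrArg (fun z => algebraMap ℂ A (2 * (N : ℂ))⁻¹ * trace z) h1
  simp only [trace_smul, trace_one, Fintype.card_fin] at h5
  have h6 : algebraMap ℂ A (2 * (N : ℂ))⁻¹ * (2 * (N : A)) = 1 := by
    have : (2 * (N : A)) = algebraMap ℂ A (2 * (N : ℂ)) := by
      rw [map_mul, map_ofNat, map_natCast]
    rw [this, ← map_mul, inv_mul_cancel₀, map_one]
    exact mul_ne_zero two_ne_zero (trace_one_ne (N := N))
  rw [Matrix.mul_apply]
  simp only [Matrix.transpose_apply]
  have h7 : ∑ l, rho S x l j * rho S x l k =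
      algebraMap ℂ A (2 * (N : ℂ))⁻¹ * ((2 * ∑ l, rho S x l j * rho S x l k) • (N : A)) := by
    rw [smul_eq_mul]
    linear_combination (-(∑ l, rho S x l j * rho S x l k)) * h6
  rw [h7, h5, Matrix.one_apply]
  split_ifs with h
  · rw [mul_one, Algebra.smul_def, map_ofNat, h6]
  · rw [mul_zero, zero_smul, mul_zero]

/-- The vector representation is special. -/
theorem rho_det {x : Mt N A} (hx : IsPt (spin S) x) : (rho S x).det = 1 := by
  have h0 : ∀ (R : Type) [CommRing R] [Algebra ℂ R] (y : Mt N R), IsPt (spin S) y →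
      (rho S y).det * (rho S y).det = 1 := by
    intro R _ _ y hy
    have h1 := congrArg Matrix.det (rho_orth S hy)
    rwa [det_mul, det_transpose, det_one] at h1
  have h1 : ∀ γ ∈ spin S, (rho S γ.1).det = 1 := by
    intro γ hγ
    obtain ⟨c, c0, c1, hc⟩ := joined_spin S γ hγ
    have h2 := h0 ℂ[X] c (isPt_of_curve hc)
    have h3 : ∀ t : ℂ, ((rho S c).det).eval t = (rho S (Ev c t)).det := by
      intro t
      have h4 : (rho S c).map (Polynomial.aeval t : ℂ[X] →ₐ[ℂ] ℂ) = rho S (Ev c t) :=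
        rho_map S (Polynomial.aeval t : ℂ[X] →ₐ[ℂ] ℂ) c
      rw [← h4, ← Polynomial.coe_aeval_eq_eval]
      exact AlgHom.map_det (Polynomial.aeval t : ℂ[X] →ₐ[ℂ] ℂ) (rho S c)
    have h5 : ((rho S c).det - 1) * ((rho S c).det + 1) = 0 := by linear_combination h2
    rcases mul_eq_zero.1 h5 with h6 | h6
    · rw [← c1, ← h3, sub_eq_zero.1 h6, Polynomial.eval_one]
    · exfalso
      have h7 := h3 0
      rw [eq_neg_of_add_eq_zero_left h6, c0, rho_one, det_one, Polynomial.eval_neg,
        Polynomial.eval_one] at h7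
      norm_num at h7
  have h2 : (Matrix.of fun _ _ : Unit => (rho S x).det - 1) = (0 : Matrix Unit Unit A) := by
    refine of_gamma (Γ := spin S) (Φ := fun A _ _ x =>
      (Matrix.of fun _ _ : Unit => (rho S x).det - 1 : Matrix Unit Unit A)) ?_ ?_ hx
    · intro A B _ _ _ _ f x
      ext i j
      rw [Matrix.map_apply, Matrix.of_apply, Matrix.of_apply, map_sub, map_one, ← rho_map]
      congr 1
      exact AlgHom.map_det f (rho S x)
    · intro γ hγ
      ext i j
      rw [Matrix.of_apply, h1 γ hγ, sub_self]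
      rfl
  have h3 := congrFun (congrFun h2 ()) ()
  rw [Matrix.of_apply, Matrix.zero_apply] at h3
  exact sub_eq_zero.1 h3

end Coeff

end

end Vale.Agent.P286.H987
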