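import Vale.Agent.P286.H987.EvHom
import Vale.Agent.P286.H44.Rst
import Vale.Agent.P286.H341.Lam

/-!
# The evaluation factors through the exterior algebra of the dual of the Lie algebra
-/

namespace Vale.Agent.P286.H987

open TensorProduct Matrix Vale.Agent.P286.H341 Vale.Agent.P286.H847 Vale.Agent.P286.H166
  Vale.Agent.P286.H710 Vale.Agent.P286.H44 Vale.Agent.P286.Gen Vale.Agent.P286.H295
  Vale.Agent.P286.H103

noncomputable section

set_option linter.unusedSectionVars false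

section Pr

variable {I : Type} [Fintype I] [DecidableEq I] {n k : ℕ} {c : Fin k → Fin k → Fin k → ℂ}
  (d : SD c n (MvPolynomial (Fin k) ℂ)) (e : Fin k → Matrix I I ℂ)

theorem pr_Tk (a : Fin k) (v : KK n k) : d.pr (Tk n a v) = Ex.th a (d.pr v) := KV.pr_tm1 _ _ _

theorem pr_Xk (t : Fin n) (v : KK n k) : d.pr (Xk k t v) = 0 := by
  refine KV.pr_tm (fun m => ?_) v
  refine KV.hom_ext (f := KV.aug d.ag.toLinearMap ∘ₗ tm (Ex.th t) 1) (g := 0) (fun x s => ?_) m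
  rw [LinearMap.comp_apply, tm_tt, KV.aug_tt, Ex.th_apply, Ex.gn, Ex.aug_ι_mul, zero_mul]
  rfl

theorem aug_mop (s : MvPolynomial (Fin k) ℂ) (m : MK n k) :
    KV.aug d.ag.toLinearMap (tm 1 (mop s) m) = d.ag s * KV.aug d.ag.toLinearMap m := by
  refine KV.hom_ext (f := KV.aug d.ag.toLinearMap ∘ₗ tm 1 (mop s))
    (g := d.ag s • KV.aug d.ag.toLinearMap) (fun z f => ?_) m
  rw [LinearMap.comp_apply, tm_tt, KV.aug_tt, LinearMap.smul_apply, KV.aug_tt]
  change Ex.aug z * d.ag (s * f) = d.ag s * (Ex.aug z * d.ag f)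
  rw [map_mul]
  ring

theorem pr_Fk (s : MvPolynomial (Fin k) ℂ) (v : KK n k) : d.pr (Fk n k s v) = d.ag s • d.pr v := by
  refine KV.hom_ext (f := d.pr ∘ₗ Fk n k s) (g := d.ag s • d.pr) (fun x m => ?_) v
  change KV.aug d.ag.toLinearMap (tm 1 (mop s) m) • x = d.ag s • (KV.aug d.ag.toLinearMap m • x)
  rw [smul_smul, aug_mop]

theorem ag_res (hF : ∀ a, d.ag (MvPolynomial.X a) = 0) (p : Pl I) :
    d.ag (res e p) = MvPolynomial.aeval (fun _ => (0 : ℂ)) p := by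
  have h : d.ag.comp (res e) = MvPolynomial.aeval (fun _ => (0 : ℂ)) := by
    refine MvPolynomial.algHom_ext fun s => ?_
    rw [AlgHom.comp_apply, res_X, map_sum, MvPolynomial.aeval_X]
    refine Finset.sum_eq_zero fun a _ => ?_
    rw [map_mul, hF, mul_zero]
  exact DFunLike.congr_fun h p

end Pr

section Uni

variable {I : Type} [Fintype I] [DecidableEq I] {n k : ℕ} {c : Fin k → Fin k → Fin k → ℂ}
  {d : SD c n (MvPolynomial (Fin k) ℂ)} {e : Fin k → Matrix I I ℂ} {B : Type} [CommRing B]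
  [Algebra ℂ B]

/-- **The composite of the restriction, the projection and a multiplicative map is the
evaluation.** -/
theorem comp_eq_ev (hF : ∀ a, d.ag (MvPolynomial.X a) = 0) (L : Ex (Fin k) →ₗ[ℂ] Om ℂ B)
    (w : Fin k → Om ℂ B) (h1 : L 1 = 1) (hL : ∀ a x, L (Ex.th a x) = w a * L x)
    (ρ : Wk I n →ₐ[ℂ] Om ℂ B) (hθ : ∀ i j, ρ (Wk.th I n i j) = ∑ a, e a i j • w a)
    (hξ : ∀ t, ρ (Wk.xi I n t) = 0)
    (hp : ∀ f, ρ (Wk.inP I n f) = algebraMap ℂ (Om ℂ B) (MvPolynomial.aeval (fun _ => (0 : ℂ)) f))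
    (x : Wk I n) : L (d.pr (H44.rs e n x)) = ρ x := by
  induction x using Wk.ind with
  | hp f =>
    have h2 := rs_inP (n := n) e f 1
    rw [mul_one] at h2
    rw [h2, pr_Fk, ag_res d e hF, map_smul, rs_one]
    have h3 : d.pr (ok n k) = 1 := d.pr_tt_one 1
    rw [h3, h1, hp, Algebra.smul_def, mul_one]
  | ho a x hx =>
    rw [rs_gn, map_mul, ← hx]
    rcases a with ⟨i, j⟩ | t
    · rw [gl_inl, LinearMap.sum_apply, map_sum, map_sum]
      have h2 := hθ i j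
      rw [Wk.th] at h2
      rw [h2, Finset.sum_mul]
      refine Finset.sum_congr rfl fun a _ => ?_
      rw [LinearMap.smul_apply, map_smul, map_smul, pr_Tk, hL, smul_mul_assoc]
    · rw [gl_inr, pr_Xk, map_zero]
      have h2 := hξ t
      rw [Wk.xi] at h2
      rw [h2, zero_mul]
  | hs b x hx => rw [map_smul, map_smul, map_smul, map_smul, hx]
  | ha x z hx hz => rw [map_add, map_add, map_add, map_add, hx, hz]

end Uni

section Ev

variable {I : Type} [Fintype I] [DecidableEq I] {n k N : ℕ} {Γ : Gps N}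
  {c : Fin k → Fin k → Fin k → ℂ} {d : SD c n (MvPolynomial (Fin k) ℂ)} {e : Fin k → Matrix I I ℂ}

/-- The composite is the evaluation at the inverse of the universal point. -/
theorem Rpn.comp_eq_evx (R : Rpn Γ I) (hP : (vanI Γ).IsPrime)
    (hF : ∀ a, d.ag (MvPolynomial.X a) = 0) (L : Ex (Fin k) →ₗ[ℂ] Om ℂ (Of Γ))
    (w : Fin k → Om ℂ (Of Γ)) (h1 : L 1 = 1) (hL : ∀ a x, L (Ex.th a x) = w a * L x)
    (hw : ∀ i j, ∑ a, e a i j • w a = ∑ l, R.drL (bs Γ l) i j • tho Γ l) (x : Wk I n) :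
    L (d.pr (H44.rs e n x)) = R.evx n (ug Γ)⁻¹ x := by
  refine comp_eq_ev hF L w h1 hL (R.evx n (ug Γ)⁻¹) (fun i j => ?_) (fun t => ?_) (fun f => ?_) x
  · rw [R.evx_inv_th' hP, hw]
  · exact ev_xi _ t
  · exact ev_inP _ f

/-- The same for the maps of the library. -/
theorem Rpn.qis_of_comp (R : Rpn Γ I) (n : ℕ) {M P : GD}
    (u : GD.Hom (WK I n).toGD M) (v : GD.Hom M P) (L : GD.Hom P (OmGD (Of Γ)))
    (hu : GD.Qis u) (hv : GD.Qis v) (hL : GD.Qis L)
    (h : ∀ x, L.f (v.f (u.f x)) = R.evx n (ug Γ)⁻¹ x) : GD.Qis (R.evU n) := by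
  rw [R.qis_evU_iff]
  have h2 : L.comp (v.comp u) = R.evHom n (ug Γ)⁻¹ := gd_hom_ext h
  rw [← h2]
  exact GD.Qis.comp hL (GD.Qis.comp hv hu)

end Ev

end

end Vale.Agent.P286.H987
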