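import Vale.Agent.P286.Gen.Lie

/-!
# Groups generated by one-parameter families are irreducible

Let `Γ` be a group of complex matrices such that every element `γ` of `Γ` is joined with `1` by a
polynomial curve in `Γ`.  Then the ideal of the polynomials vanishing on `Γ` is prime.
-/

namespace Vale.Agent.P286.H987

open Matrix Polynomial Vale.Agent.P286.Gen

noncomputable section

variable {N : ℕ}

/-- The value at `t` of a polynomial curve. -/
def Ev (c : Mt N ℂ[X]) (t : ℂ) : Mt N ℂ := c.map (Polynomial.aeval t : ℂ[X] →ₐ[ℂ] ℂ)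

theorem Ev_apply (c : Mt N ℂ[X]) (t : ℂ) (i j : Fin N) : Ev c t i j = (c i j).eval t := by
  change (Polynomial.aeval t) (c i j) = _
  rw [← Polynomial.coe_aeval_eq_eval]

theorem Ev_mul (c d : Mt N ℂ[X]) (t : ℂ) : Ev (c * d) t = Ev c t * Ev d t := Matrix.map_mul

theorem Ev_one (t : ℂ) : Ev (1 : Mt N ℂ[X]) t = 1 := Matrix.map_one _ (map_zero _) (map_one _)

theorem Ev_adjugate (c : Mt N ℂ[X]) (t : ℂ) : Ev c.adjugate t = (Ev c t).adjugate := by
  have h := AlgHom.map_adjugate (Polynomial.aeval t : ℂ[X] →ₐ[ℂ] ℂ) c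
  exact h

/-- The curve `t ↦ c (1 - t)`. -/
def rev (c : Mt N ℂ[X]) : Mt N ℂ[X] := c.map (Polynomial.aeval (1 - X : ℂ[X]) : ℂ[X] →ₐ[ℂ] ℂ[X])

theorem Ev_rev (c : Mt N ℂ[X]) (t : ℂ) : Ev (rev c) t = Ev c (1 - t) := by
  ext i j
  rw [Ev_apply, Ev_apply]
  change ((Polynomial.aeval (1 - X : ℂ[X])) (c i j)).eval t = _
  rw [← Polynomial.coe_aeval_eq_eval, ← Polynomial.aeval_algHom_apply]
  simp [Polynomial.coe_aeval_eq_eval]

theorem aeval_ev (c : Mt N ℂ[X]) (t : ℂ) (P : Pl N) : (ev c P).eval t = ev (Ev c t) P := by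
  rw [← Polynomial.coe_aeval_eq_eval]
  exact map_ev (Polynomial.aeval t : ℂ[X] →ₐ[ℂ] ℂ) c P

/-- The element `γ` is joined with `1` by a polynomial curve in `Γ`. -/
def Joined (Γ : Gps N) (γ : SpecialLinearGroup (Fin N) ℂ) : Prop :=
  ∃ c : Mt N ℂ[X], Ev c 0 = 1 ∧ Ev c 1 = γ.1 ∧ ∀ t, ∃ g ∈ Γ, g.1 = Ev c t

theorem Joined.one (Γ : Gps N) : Joined Γ 1 :=
  ⟨1, Ev_one 0, Ev_one 1, fun t => ⟨1, Γ.one_mem, (Ev_one t).symm⟩⟩

theorem Joined.mul {Γ : Gps N} {γ δ : SpecialLinearGroup (Fin N) ℂ} (h : Joined Γ γ)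
    (h' : Joined Γ δ) : Joined Γ (γ * δ) := by
  obtain ⟨c, c0, c1, hc⟩ := h
  obtain ⟨d, d0, d1, hd⟩ := h'
  refine ⟨c * d, by rw [Ev_mul, c0, d0, one_mul], by rw [Ev_mul, c1, d1]; rfl, fun t => ?_⟩
  obtain ⟨g, hg, eg⟩ := hc t
  obtain ⟨k, hk, ek⟩ := hd t
  exact ⟨g * k, Γ.mul_mem hg hk, by rw [Ev_mul, ← eg, ← ek]; rfl⟩

theorem Joined.inv {Γ : Gps N} {γ : SpecialLinearGroup (Fin N) ℂ} (h : Joined Γ γ) :
    Joined Γ γ⁻¹ := by
  obtain ⟨c, c0, c1, hc⟩ := h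
  refine ⟨c.adjugate, by rw [Ev_adjugate, c0, Matrix.adjugate_one], by rw [Ev_adjugate, c1]; rfl,
    fun t => ?_⟩
  obtain ⟨g, hg, eg⟩ := hc t
  exact ⟨g⁻¹, Γ.inv_mem hg, by rw [Ev_adjugate, ← eg]; rfl⟩

/-- If the generators are joined with `1`, then so are all elements. -/
theorem joined_closure {S : Set (SpecialLinearGroup (Fin N) ℂ)}
    (h : ∀ x ∈ S, Joined (Subgroup.closure S) x) :
    ∀ x ∈ Subgroup.closure S, Joined (Subgroup.closure S) x := by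
  intro x hx
  induction hx using Subgroup.closure_induction with
  | mem x hx => exact h x hx
  | one => exact Joined.one _
  | mul x y _ _ hx hy => exact hx.mul hy
  | inv x _ hx => exact hx.inv

/-- The ideal of an irreducible group is prime. -/
theorem prime_of_joined {Γ : Gps N} (h : ∀ γ ∈ Γ, Joined Γ γ) : (vanI Γ).IsPrime := by
  refine ⟨fun h1 => ?_, ?_⟩
  · have h2 : (1 : Pl N) ∈ vanI Γ := h1 ▸ Submodule.mem_top
    have h3 := h2 1 Γ.one_mem
    rw [map_one] at h3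
    exact one_ne_zero h3
  · intro P Q hPQ
    by_contra hcon
    push Not at hcon
    obtain ⟨hP, hQ⟩ := hcon
    have hP' : ∃ γ ∈ Γ, ev γ.1 P ≠ 0 := by
      by_contra hc
      push Not at hc
      exact hP hc
    have hQ' : ∃ γ ∈ Γ, ev γ.1 Q ≠ 0 := by
      by_contra hc
      push Not at hc
      exact hQ hc
    obtain ⟨γ, hγ, hPγ⟩ := hP'
    obtain ⟨δ, hδ, hQδ⟩ := hQ'
    obtain ⟨c, c0, c1, hc⟩ := h γ hγ
    obtain ⟨d, d0, d1, hd⟩ := h δ hδ
    have e0 : Ev (rev c * d) 0 = γ.1 := by rw [Ev_mul, Ev_rev, sub_zero, c1, d0, mul_one]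
    have e1 : Ev (rev c * d) 1 = δ.1 := by rw [Ev_mul, Ev_rev, sub_self, c0, d1, one_mul]
    have hp : ev (rev c * d) P ≠ 0 := by
      intro h0
      apply hPγ
      rw [← e0, ← aeval_ev, h0, Polynomial.eval_zero]
    have hq : ev (rev c * d) Q ≠ 0 := by
      intro h0
      apply hQδ
      rw [← e1, ← aeval_ev, h0, Polynomial.eval_zero]
    apply mul_ne_zero hp hq
    apply Polynomial.funext
    intro t
    rw [← map_mul, aeval_ev, Polynomial.eval_zero]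
    obtain ⟨g, hg, eg⟩ := hc (1 - t)
    obtain ⟨k, hk, ek⟩ := hd t
    have e : Ev (rev c * d) t = (g * k).1 := by
      rw [Ev_mul, Ev_rev, ← eg, ← ek]
      rfl
    rw [e]
    exact hPQ _ (Γ.mul_mem hg hk)

/-- A polynomial curve in `Γ` is a point of `G` over `ℂ[X]`. -/
theorem isPt_of_curve {Γ : Gps N} {c : Mt N ℂ[X]} (h : ∀ t, ∃ g ∈ Γ, g.1 = Ev c t) :
    IsPt Γ c := by
  intro P hP
  apply Polynomial.funext
  intro t
  rw [aeval_ev, Polynomial.eval_zero]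
  obtain ⟨g, hg, eg⟩ := h t
  rw [← eg]
  exact hP g hg

/-- `1 + s y` -/
def line (y : Mt N ℂ) : Mt N ℂ[X] := 1 + (X : ℂ[X]) • cm ℂ[X] y

theorem Ev_line (y : Mt N ℂ) (t : ℂ) : Ev (line y) t = 1 + t • y := by
  ext i j
  rw [Ev_apply]
  simp only [line, Matrix.add_apply, Matrix.smul_apply, Matrix.one_apply, cm, Matrix.map_apply,
    smul_eq_mul, Polynomial.eval_add, Polynomial.eval_mul, Polynomial.eval_X]
  congr 1
  · split_ifs <;> simp
  · simp

/-- If `1 + t y ∈ Γ` for all `t`, then `y` is in the Lie algebra. -/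
theorem isLi_of_line {Γ : Gps N} {y : Mt N ℂ} (h : ∀ t : ℂ, ∃ g ∈ Γ, g.1 = 1 + t • y) :
    IsLi Γ y := by
  have h1 : IsPt Γ (line y) := isPt_of_curve (fun t => by
    obtain ⟨g, hg, eg⟩ := h t
    exact ⟨g, hg, by rw [eg, Ev_line]⟩)
  have h2 := h1.map (Polynomial.aeval (DualNumber.eps : DualNumber ℂ) : ℂ[X] →ₐ[ℂ] DualNumber ℂ)
  have e : (line y).map (Polynomial.aeval (DualNumber.eps : DualNumber ℂ) :
      ℂ[X] →ₐ[ℂ] DualNumber ℂ) = du 1 y := by
    ext i j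
    · simp [line, du, cm, Matrix.one_apply, TrivSqZeroExt.algebraMap_eq_inl]
      split_ifs <;> simp
    · simp [line, du, cm, Matrix.one_apply, TrivSqZeroExt.algebraMap_eq_inl]
      split_ifs <;> simp
  rw [e] at h2
  exact h2

theorem joined_of_line {Γ : Gps N} {y : Mt N ℂ} (h : ∀ t : ℂ, ∃ g ∈ Γ, g.1 = 1 + t • y)
    {γ : SpecialLinearGroup (Fin N) ℂ} {s : ℂ} (hγ : γ.1 = 1 + s • y) : Joined Γ γ := by
  refine ⟨line (s • y), ?_, ?_, fun t => ?_⟩
  · rw [Ev_line, zero_smul, add_zero]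
  · rw [Ev_line, one_smul, hγ]
  · obtain ⟨g, hg, eg⟩ := h (t * s)
    exact ⟨g, hg, by rw [Ev_line, eg, smul_smul]⟩

end

end Vale.Agent.P286.H987
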